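import Vale.Agent.P113.Flow

/-! Periodic building blocks and the Cantor encoding of stacks. -/

namespace Vale.Agent.P113

open Set Real

/-- A plateau function: one on `[0, 1/4]`, zero outside `(-1/8, 3/8)`. -/
noncomputable def plat (r : ℝ) : ℝ := smoothTransition (8 * r + 1) * smoothTransition (-8 * r + 3)

theorem plat_one {r : ℝ} (h : r ∈ Icc (0 : ℝ) (1 / 4)) : plat r = 1 := by
  unfold plat
  rw [smoothTransition.one_of_one_le (by linarith [h.1]),
    smoothTransition.one_of_one_le (by linarith [h.2]), one_mul]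

theorem plat_zero {r : ℝ} (h : 3 / 8 ≤ |r|) : plat r = 0 := by
  unfold plat
  rcases le_abs.mp h with h | h
  · rw [smoothTransition.zero_of_nonpos (x := -8 * r + 3) (by linarith), mul_zero]
  · rw [smoothTransition.zero_of_nonpos (x := 8 * r + 1) (by linarith), zero_mul]

/-- A periodic selected affine function. -/
noncomputable def blk (K m c0 c1 : ℚ) : ℝ → ℝ :=
  perio (fun s => plat s * (plat ((K : ℝ) * s + m) * ((c1 : ℝ) * s + c0)))

theorem blk_eq (K m c0 c1 : ℚ) {r : ℝ} (h : r ∈ Icc (0 : ℝ) (1 / 4)) :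
    blk K m c0 c1 r = plat ((K : ℝ) * r + m) * ((c1 : ℝ) * r + c0) := by
  unfold blk
  rw [perio_eq (fun s hs => by rw [plat_zero hs, zero_mul]) r 0 (by
    rw [abs_le]; push_cast; constructor <;> linarith [h.1, h.2])]
  simp [plat_one h]

theorem blk_add_one (K m c0 c1 : ℚ) (r : ℝ) : blk K m c0 c1 (r + 1) = blk K m c0 c1 r :=
  perio_add_one _ r

/-- A finite sum of selected affine functions of two variables. -/
noncomputable def gsum (n : ℕ) (K m K' m' c0 c1 c2 : ℕ → ℚ) (r s : ℝ) : ℝ :=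
  ∑ j ∈ Finset.range n, (blk (K j) (m j) (c0 j) (c1 j) r * blk (K' j) (m' j) 1 0 s
    + blk (K j) (m j) 1 0 r * blk (K' j) (m' j) 0 (c2 j) s)

theorem gsum_per (n : ℕ) (K m K' m' c0 c1 c2 : ℕ → ℚ) (r s : ℝ) :
    gsum n K m K' m' c0 c1 c2 (r + 1) s = gsum n K m K' m' c0 c1 c2 r s ∧
      gsum n K m K' m' c0 c1 c2 r (s + 1) = gsum n K m K' m' c0 c1 c2 r s := by
  simp [gsum, blk_add_one]

theorem gsum_eq {n : ℕ} {K m K' m' c0 c1 c2 : ℕ → ℚ} {r s : ℝ} (hr : r ∈ Icc (0 : ℝ) (1 / 4))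
    (hs : s ∈ Icc (0 : ℝ) (1 / 4)) {j0 : ℕ} (hj : j0 < n)
    (h1 : plat ((K j0 : ℝ) * r + m j0) * plat ((K' j0 : ℝ) * s + m' j0) = 1)
    (h0 : ∀ j, j < n → j ≠ j0 → plat ((K j : ℝ) * r + m j) * plat ((K' j : ℝ) * s + m' j) = 0) :
    gsum n K m K' m' c0 c1 c2 r s = c0 j0 + c1 j0 * r + c2 j0 * s := by
  unfold gsum
  have e : ∀ j, blk (K j) (m j) (c0 j) (c1 j) r * blk (K' j) (m' j) 1 0 s
      + blk (K j) (m j) 1 0 r * blk (K' j) (m' j) 0 (c2 j) s
      = (plat ((K j : ℝ) * r + m j) * plat ((K' j : ℝ) * s + m' j))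
        * (c0 j + c1 j * r + c2 j * s) := by
    intro j
    rw [blk_eq _ _ _ _ hr, blk_eq _ _ _ _ hr, blk_eq _ _ _ _ hs, blk_eq _ _ _ _ hs]
    push_cast
    ring
  simp only [e]
  rw [Finset.sum_eq_single j0, h1, one_mul]
  · intro j hj hne
    rw [h0 j (Finset.mem_range.mp hj) hne, zero_mul]
  · intro h
    exact absurd (Finset.mem_range.mpr hj) h

section Eff

variable {α : Type} [Primcodable α]

theorem eff1_plat : Eff1 (fun _ : α => plat) :=
  ((Eff1.phi.affine (CQ.const 8) (CQ.const 1)).mul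
    (Eff1.phi.affine (CQ.const (-8)) (CQ.const 3))).of_eq (fun _ r => by simp [plat])

theorem eff1_blk {K m c0 c1 : α → ℚ} (hK : CQ K) (hm : CQ m) (h0 : CQ c0) (h1 : CQ c1) :
    Eff1 (fun a => blk (K a) (m a) (c0 a) (c1 a)) :=
  (eff1_plat.mul ((eff1_plat.affine hK hm).mul (Eff1.id.affine h1 h0))).perio
    (fun _ s hs => by rw [plat_zero hs, zero_mul])

theorem eff2_gsum {n : α → ℕ} (hn : Computable n) {K m K' m' c0 c1 c2 : α → ℕ → ℚ}
    (hK : CQ (fun p : α × ℕ => K p.1 p.2)) (hm : CQ (fun p : α × ℕ => m p.1 p.2))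
    (hK' : CQ (fun p : α × ℕ => K' p.1 p.2)) (hm' : CQ (fun p : α × ℕ => m' p.1 p.2))
    (h0 : CQ (fun p : α × ℕ => c0 p.1 p.2)) (h1 : CQ (fun p : α × ℕ => c1 p.1 p.2))
    (h2 : CQ (fun p : α × ℕ => c2 p.1 p.2)) :
    Eff2 (fun a => gsum (n a) (K a) (m a) (K' a) (m' a) (c0 a) (c1 a) (c2 a)) :=
  ⟨n, _, _, _, _, hn, eff1_blk hK hm h0 h1, eff1_blk hK' hm' (CQ.const 1) (CQ.const 0),
    eff1_blk hK hm (CQ.const 1) (CQ.const 0), eff1_blk hK' hm' (CQ.const 0) h2,
    fun _ _ _ => rfl⟩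

end Eff

/-- Cantor encoding of a stack in base `b`. -/
def encQ (b : ℕ) : List ℕ → ℚ
  | [] => 0
  | s :: l => (s + encQ b l) / b

theorem cq_encQ {α : Type} [Primcodable α] {b : α → ℕ} (hb : Computable b) (hpos : ∀ a, 0 < b a)
    {l : α → List ℕ} (hl : Computable l) : CQ (fun a => encQ (b a) (l a)) := by
  have h : Primrec (fun p : ℕ × List ℕ => p.2.foldr
      (fun s (q : QName) => ((s * (q.2.2 + 1) + q.1, 0, (q.2.2 + 1) * p.1 - 1) : QName))
      ((0, 0, 0) : QName)) := by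
    refine Primrec.list_foldr (h := fun (p : ℕ × List ℕ) (z : ℕ × QName) =>
      ((z.1 * (z.2.2.2 + 1) + z.2.1, 0, (z.2.2.2 + 1) * p.1 - 1) : QName)) Primrec.snd
      (Primrec.const _) ?_
    have a : Primrec (fun w : (ℕ × List ℕ) × ℕ × QName => w.2.2.2.2 + 1) :=
      Primrec.succ.comp (Primrec.snd.comp (Primrec.snd.comp (Primrec.snd.comp Primrec.snd)))
    exact (Primrec.nat_add.comp (Primrec.nat_mul.comp (Primrec.fst.comp Primrec.snd) a)
      (Primrec.fst.comp (Primrec.snd.comp Primrec.snd))).pair ((Primrec.const 0).pair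
        (Primrec.nat_sub.comp (Primrec.nat_mul.comp a (Primrec.fst.comp Primrec.fst))
          (Primrec.const 1)))
  refine ⟨_, h.to_comp.comp (hb.pair hl), fun a => ?_⟩
  have hp := hpos a
  beta_reduce
  generalize b a = c at hp ⊢
  have key : ∀ l : List ℕ, (l.foldr
      (fun s (q : QName) => ((s * (q.2.2 + 1) + q.1, 0, (q.2.2 + 1) * c - 1) : QName))
      ((0, 0, 0) : QName)).2.1 = 0 ∧ QName.val (l.foldr
      (fun s (q : QName) => ((s * (q.2.2 + 1) + q.1, 0, (q.2.2 + 1) * c - 1) : QName))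
      ((0, 0, 0) : QName)) = encQ c l := by
    intro l
    induction l with
    | nil => simp [QName.val, encQ]
    | cons s l ih =>
      refine ⟨rfl, ?_⟩
      rw [List.foldr_cons, encQ, ← ih.2]
      have h0 := ih.1
      generalize l.foldr (fun s (q : QName) => ((s * (q.2.2 + 1) + q.1, 0,
        (q.2.2 + 1) * c - 1) : QName)) ((0, 0, 0) : QName) = q at h0 ⊢
      obtain ⟨x, y, z⟩ := q
      simp only at h0
      subst h0
      simp only [QName.val]
      have e : (((z + 1) * c - 1 : ℕ) : ℚ) + 1 = ((z : ℚ) + 1) * c := by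
        have : 1 ≤ (z + 1) * c := Nat.mul_pos (Nat.succ_pos z) hp
        rw [Nat.cast_sub this]
        push_cast; ring
      rw [e]
      have : (c : ℚ) ≠ 0 := by positivity
      push_cast
      field_simp
      ring
  exact (key (l a)).2

/-- `u` is an initial segment of the stack `l`, read with a tail of zeros. -/
def Pre : List ℕ → List ℕ → Prop
  | [], _ => True
  | s :: u, l => l.headD 0 = s ∧ Pre u l.tail

theorem pre_append (u l : List ℕ) : Pre u (u ++ l) := by
  induction u with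
  | nil => trivial
  | cons s u ih => exact ⟨rfl, ih⟩

theorem encQ_eq (b : ℕ) (l : List ℕ) : encQ b l = (l.headD 0 + encQ b l.tail) / b := by
  cases l <;> simp [encQ]

theorem encQ_mem {N : ℕ} (hN : 0 < N) {l : List ℕ} (h : ∀ s ∈ l, s < N) :
    (encQ (4 * N) l : ℝ) ∈ Icc (0 : ℝ) (1 / 4) := by
  induction l with
  | nil => simp [encQ]
  | cons s l ih =>
    have h1 := ih (fun a ha => h a (List.mem_cons_of_mem _ ha))
    have h2 : (s : ℝ) + 1 ≤ N := by exact_mod_cast h s List.mem_cons_self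
    have h3 : (0 : ℝ) < N := by exact_mod_cast hN
    simp only [encQ]
    push_cast
    constructor
    · have := h1.1
      positivity
    · rw [div_le_iff₀ (by positivity)]
      linarith [h1.2]

theorem encQ_append (b : ℕ) (hb : 0 < b) (u l : List ℕ) :
    encQ b (u ++ l) = encQ b u + encQ b l / (b : ℚ) ^ u.length := by
  have : (b : ℚ) ≠ 0 := by positivity
  induction u with
  | nil => simp [encQ]
  | cons s u ih =>
    simp only [List.cons_append, encQ, ih, List.length_cons, pow_succ]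
    field_simp
    ring

theorem encQ_pre (b : ℕ) (hb : 0 < b) {u l : List ℕ} (h : Pre u l) :
    encQ b l = encQ b u + encQ b (l.drop u.length) / (b : ℚ) ^ u.length := by
  have : (b : ℚ) ≠ 0 := by positivity
  induction u generalizing l with
  | nil => simp [encQ]
  | cons s u ih =>
    rw [encQ_eq b l, h.1, ih h.2]
    simp only [encQ, List.length_cons, pow_succ, List.drop_tail]
    field_simp
    ring

/-- Slope of the selector of the word `u`. -/
def selK (b : ℕ) (u : List ℕ) : ℚ := (b : ℚ) ^ u.length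

/-- Offset of the selector of the word `u`. -/
def selM (b : ℕ) (u : List ℕ) : ℚ := -((b : ℚ) ^ u.length * encQ b u)

theorem sel_one {N : ℕ} (hN : 0 < N) {u l : List ℕ} (hl : ∀ s ∈ l, s < N) (h : Pre u l) :
    plat ((selK (4 * N) u : ℝ) * (encQ (4 * N) l : ℝ) + selM (4 * N) u) = 1 := by
  have h1 := encQ_mem hN (l := l.drop u.length) (fun s hs => hl s (List.mem_of_mem_drop hs))
  have h2 : selK (4 * N) u * encQ (4 * N) l + selM (4 * N) u = encQ (4 * N) (l.drop u.length) := by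
    rw [encQ_pre _ (by omega) h, selK, selM]
    have : ((4 * N : ℕ) : ℚ) ≠ 0 := by positivity
    field_simp
    ring
  rw [← h2] at h1
  push_cast at h1
  exact plat_one h1

theorem sel_far {N : ℕ} (hN : 0 < N) {u : List ℕ} (hu : ∀ s ∈ u, s < N) {l : List ℕ}
    (hl : ∀ s ∈ l, s < N) (h : ¬ Pre u l) :
    3 / 8 ≤ |(selK (4 * N) u : ℝ) * (encQ (4 * N) l : ℝ) + selM (4 * N) u| := by
  induction u generalizing l with
  | nil => exact absurd trivial h
  | cons s u ih =>
    have hu' : ∀ a ∈ u, a < N := fun a ha => hu a (List.mem_cons_of_mem _ ha)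
    have hl' : ∀ a ∈ l.tail, a < N := fun a ha => hl a (List.mem_of_mem_tail ha)
    have hb : ((4 * N : ℕ) : ℚ) ≠ 0 := by positivity
    have e : selK (4 * N) (s :: u) * encQ (4 * N) l + selM (4 * N) (s :: u)
        = selK (4 * N) u * (((l.headD 0 : ℕ) : ℚ) - s)
          + (selK (4 * N) u * encQ (4 * N) l.tail + selM (4 * N) u) := by
      rw [encQ_eq _ l]
      simp only [selK, selM, encQ, List.length_cons, pow_succ]
      field_simp
      ring
    have e' : (selK (4 * N) (s :: u) : ℝ) * (encQ (4 * N) l : ℝ) + selM (4 * N) (s :: u)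
        = (selK (4 * N) u : ℝ) * (((l.headD 0 : ℕ) : ℝ) - s)
          + ((selK (4 * N) u : ℝ) * (encQ (4 * N) l.tail : ℝ) + selM (4 * N) u) := by
      exact_mod_cast e
    rw [e']
    by_cases hs : l.headD 0 = s
    · rw [hs, sub_self, mul_zero, zero_add]
      exact ih hu' hl' (fun h' => h ⟨hs, h'⟩)
    · have a1 := encQ_mem hN hu'
      have a2 := encQ_mem hN hl'
      have hK : (1 : ℝ) ≤ (selK (4 * N) u : ℝ) := by
        unfold selK
        push_cast
        have : (1 : ℝ) ≤ N := by exact_mod_cast hN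
        exact one_le_pow₀ (by linarith)
      have hM : (selM (4 * N) u : ℝ) = -((selK (4 * N) u : ℝ) * (encQ (4 * N) u : ℝ)) := by
        unfold selM selK; push_cast; ring
      rw [hM]
      rcases lt_or_gt_of_ne hs with h' | h'
      · have : ((l.headD 0 : ℕ) : ℝ) + 1 ≤ s := by exact_mod_cast h'
        rw [le_abs]; right
        nlinarith [a1.1, a1.2, a2.1, a2.2]
      · have : (s : ℝ) + 1 ≤ ((l.headD 0 : ℕ) : ℝ) := by exact_mod_cast h'
        rw [le_abs]; left
        nlinarith [a1.1, a1.2, a2.1, a2.2]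

theorem sel_zero {N : ℕ} (hN : 0 < N) {u : List ℕ} (hu : ∀ s ∈ u, s < N) {l : List ℕ}
    (hl : ∀ s ∈ l, s < N) (h : ¬ Pre u l) :
    plat ((selK (4 * N) u : ℝ) * (encQ (4 * N) l : ℝ) + selM (4 * N) u) = 0 :=
  plat_zero (sel_far hN hu hl h)

end Vale.Agent.P113
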