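import Vale.Agent.P113.Defs

/-! Computable rational valued functions. -/

namespace Vale.Agent.P113

variable {α β : Type} [Primcodable α] [Primcodable β]

theorem cadd {f g : α → ℕ} (hf : Computable f) (hg : Computable g) :
    Computable (fun a => f a + g a) := Primrec.nat_add.to_comp.comp hf hg

theorem cmul {f g : α → ℕ} (hf : Computable f) (hg : Computable g) :
    Computable (fun a => f a * g a) := Primrec.nat_mul.to_comp.comp hf hg

theorem csub {f g : α → ℕ} (hf : Computable f) (hg : Computable g) :
    Computable (fun a => f a - g a) := Primrec.nat_sub.to_comp.comp hf hg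

theorem cdiv {f g : α → ℕ} (hf : Computable f) (hg : Computable g) :
    Computable (fun a => f a / g a) := Primrec.nat_div.to_comp.comp hf hg

theorem cmod {f g : α → ℕ} (hf : Computable f) (hg : Computable g) :
    Computable (fun a => f a % g a) := Primrec.nat_mod.to_comp.comp hf hg

theorem cle {f g : α → ℕ} (hf : Computable f) (hg : Computable g) :
    ComputablePred (fun a => f a ≤ g a) :=
  Computable.computablePred ((Primrec.nat_le.decide.to_comp).comp hf hg)

theorem clt {f g : α → ℕ} (hf : Computable f) (hg : Computable g) :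
    ComputablePred (fun a => f a < g a) :=
  Computable.computablePred ((Primrec.nat_lt.decide.to_comp).comp hf hg)

theorem ceq [DecidableEq β] {f g : α → β} (hf : Computable f) (hg : Computable g) :
    ComputablePred (fun a => f a = g a) :=
  Computable.computablePred ((Primrec.eq.decide.to_comp).comp hf hg)

theorem cand {p q : α → Prop} (hp : ComputablePred p) (hq : ComputablePred q) :
    ComputablePred (fun a => p a ∧ q a) := by
  classical
  refine Computable.computablePred ?_
  exact (Primrec.and.to_comp.comp hp.decide hq.decide).of_eq (fun a => by simp)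

theorem cpcomp {p : β → Prop} (hp : ComputablePred p) {f : α → β} (hf : Computable f) :
    ComputablePred (fun a => p (f a)) := by
  classical
  exact Computable.computablePred (hp.decide.comp hf)

theorem cite {p : α → Prop} [DecidablePred p] (hp : ComputablePred p) {f g : α → β}
    (hf : Computable f) (hg : Computable g) : Computable (fun a => if p a then f a else g a) :=
  (hp.decide.cond hf hg).of_eq (fun a => by by_cases h : p a <;> simp [h])

theorem cpow {f g : α → ℕ} (hf : Computable f) (hg : Computable g) :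
    Computable (fun a => f a ^ g a) := by
  have := Computable.nat_rec (f := g) (g := fun _ => 1) (h := fun a p => p.2 * f a) hg
    (Computable.const 1)
    (cmul (Computable.snd.comp Computable.snd) (hf.comp Computable.fst)).to₂
  refine this.of_eq (fun a => ?_)
  induction g a with
  | zero => simp
  | succ n ih => simp only [pow_succ, ← ih]

theorem cfactorial : Computable Nat.factorial := by
  have := Computable.nat_rec (α := ℕ) (f := id) (g := fun _ => 1)
    (h := fun _ p => (p.1 + 1) * p.2) Computable.id (Computable.const 1)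
    (cmul (cadd (Computable.fst.comp Computable.snd) (Computable.const 1))
      (Computable.snd.comp Computable.snd)).to₂
  refine this.of_eq (fun a => ?_)
  simp only [id]
  induction a with
  | zero => simp
  | succ n ih => simp only [Nat.factorial_succ, ← ih]

theorem cchoose {f g : α → ℕ} (hf : Computable f) (hg : Computable g) :
    Computable (fun a => (f a).choose (g a)) := by
  refine (cite (cle hg hf) (cdiv (cfactorial.comp hf)
    (cmul (cfactorial.comp hg) (cfactorial.comp (csub hf hg)))) (Computable.const 0)).of_eq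
    (fun a => ?_)
  split_ifs with h
  · exact (Nat.choose_eq_factorial_div_factorial h).symm
  · exact (Nat.choose_eq_zero_of_lt (not_le.mp h)).symm

/-- A rational valued function computable through names. -/
def CQ (r : α → ℚ) : Prop := ∃ g : α → QName, Computable g ∧ ∀ a, (g a).val = r a

theorem q1 : Computable (fun q : QName => q.1) := Computable.fst
theorem q2 : Computable (fun q : QName => q.2.1) := Computable.fst.comp Computable.snd
theorem q3 : Computable (fun q : QName => q.2.2) := Computable.snd.comp Computable.snd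

theorem cmk {f g h : α → ℕ} (hf : Computable f) (hg : Computable g) (hh : Computable h) :
    Computable (fun a => ((f a, g a, h a) : QName)) := hf.pair (hg.pair hh)

namespace CQ

theorem of_eq {r s : α → ℚ} (h : CQ r) (e : ∀ a, r a = s a) : CQ s := by
  obtain ⟨g, hg, h⟩ := h
  exact ⟨g, hg, fun a => (h a).trans (e a)⟩

theorem comp {r : β → ℚ} (h : CQ r) {f : α → β} (hf : Computable f) : CQ (fun a => r (f a)) := by
  obtain ⟨g, hg, h⟩ := h
  exact ⟨fun a => g (f a), hg.comp hf, fun a => h _⟩

theorem val : CQ (QName.val) := ⟨id, Computable.id, fun _ => rfl⟩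

theorem ofName {g : α → QName} (hg : Computable g) : CQ (fun a => (g a).val) := val.comp hg

theorem nat {f : α → ℕ} (hf : Computable f) : CQ (fun a => (f a : ℚ)) :=
  ⟨fun a => (f a, 0, 0), cmk hf (Computable.const 0) (Computable.const 0),
    fun a => by simp [QName.val]⟩

theorem add {r s : α → ℚ} (hr : CQ r) (hs : CQ s) : CQ (fun a => r a + s a) := by
  obtain ⟨g, hg, hr⟩ := hr
  obtain ⟨k, hk, hs⟩ := hs
  have one : Computable (fun _ : α => 1) := Computable.const 1
  refine ⟨fun a => ((g a).1 * ((k a).2.2 + 1) + (k a).1 * ((g a).2.2 + 1),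
    (g a).2.1 * ((k a).2.2 + 1) + (k a).2.1 * ((g a).2.2 + 1),
    (g a).2.2 * (k a).2.2 + (g a).2.2 + (k a).2.2), ?_, fun a => ?_⟩
  · exact cmk (cadd (cmul (q1.comp hg) (cadd (q3.comp hk) one))
        (cmul (q1.comp hk) (cadd (q3.comp hg) one)))
      (cadd (cmul (q2.comp hg) (cadd (q3.comp hk) one)) (cmul (q2.comp hk) (cadd (q3.comp hg) one)))
      (cadd (cadd (cmul (q3.comp hg) (q3.comp hk)) (q3.comp hg)) (q3.comp hk))
  · beta_reduce
    rw [← hr, ← hs]
    simp only [QName.val]
    push_cast
    field_simp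
    ring

theorem neg {r : α → ℚ} (hr : CQ r) : CQ (fun a => - r a) := by
  obtain ⟨g, hg, hr⟩ := hr
  refine ⟨fun a => ((g a).2.1, (g a).1, (g a).2.2),
    cmk (q2.comp hg) (q1.comp hg) (q3.comp hg), fun a => ?_⟩
  beta_reduce
  rw [← hr]
  simp only [QName.val]
  ring

theorem sub {r s : α → ℚ} (hr : CQ r) (hs : CQ s) : CQ (fun a => r a - s a) :=
  (hr.add hs.neg).of_eq (fun a => by ring)

theorem mul {r s : α → ℚ} (hr : CQ r) (hs : CQ s) : CQ (fun a => r a * s a) := by
  obtain ⟨g, hg, hr⟩ := hr
  obtain ⟨k, hk, hs⟩ := hs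
  refine ⟨fun a => ((g a).1 * (k a).1 + (g a).2.1 * (k a).2.1,
    (g a).1 * (k a).2.1 + (g a).2.1 * (k a).1,
    (g a).2.2 * (k a).2.2 + (g a).2.2 + (k a).2.2), ?_, fun a => ?_⟩
  · exact cmk (cadd (cmul (q1.comp hg) (q1.comp hk)) (cmul (q2.comp hg) (q2.comp hk)))
      (cadd (cmul (q1.comp hg) (q2.comp hk)) (cmul (q2.comp hg) (q1.comp hk)))
      (cadd (cadd (cmul (q3.comp hg) (q3.comp hk)) (q3.comp hg)) (q3.comp hk))
  · beta_reduce
    rw [← hr, ← hs]
    simp only [QName.val]
    push_cast
    field_simp
    ring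

theorem ite {p : α → Prop} [DecidablePred p] (hp : ComputablePred p) {r s : α → ℚ}
    (hr : CQ r) (hs : CQ s) : CQ (fun a => if p a then r a else s a) := by
  obtain ⟨g, hg, hr⟩ := hr
  obtain ⟨k, hk, hs⟩ := hs
  refine ⟨fun a => if p a then g a else k a, cite hp hg hk, fun a => ?_⟩
  beta_reduce
  split_ifs <;> simp [hr, hs]

theorem nonneg {r : α → ℚ} (hr : CQ r) : ComputablePred (fun a => 0 ≤ r a) := by
  obtain ⟨g, hg, hr⟩ := hr
  refine (cle (q2.comp hg) (q1.comp hg)).of_eq (fun a => ?_)
  rw [← hr]
  simp only [QName.val]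
  rw [le_div_iff₀ (by positivity), zero_mul, sub_nonneg, Nat.cast_le]

theorem le {r s : α → ℚ} (hr : CQ r) (hs : CQ s) : ComputablePred (fun a => r a ≤ s a) :=
  (hs.sub hr).nonneg.of_eq (fun _ => sub_nonneg)

theorem lt {r s : α → ℚ} (hr : CQ r) (hs : CQ s) : ComputablePred (fun a => r a < s a) :=
  (hs.le hr).not.of_eq (fun _ => not_le)

theorem inv {r : α → ℚ} (hr : CQ r) : CQ (fun a => (r a)⁻¹) := by
  obtain ⟨g, hg, hr⟩ := hr
  have one : Computable (fun _ : α => 1) := Computable.const 1
  have zer : Computable (fun _ : α => 0) := Computable.const 0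
  refine ⟨fun a => if (g a).2.1 < (g a).1 then ((g a).2.2 + 1, 0, (g a).1 - (g a).2.1 - 1)
    else if (g a).1 < (g a).2.1 then (0, (g a).2.2 + 1, (g a).2.1 - (g a).1 - 1) else (0, 0, 0),
    ?_, fun a => ?_⟩
  · exact cite (clt (q2.comp hg) (q1.comp hg))
      (cmk (cadd (q3.comp hg) one) zer (csub (csub (q1.comp hg) (q2.comp hg)) one))
      (cite (clt (q1.comp hg) (q2.comp hg))
        (cmk zer (cadd (q3.comp hg) one) (csub (csub (q2.comp hg) (q1.comp hg)) one))
        (Computable.const _))
  · beta_reduce
    rw [← hr]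
    generalize g a = q
    obtain ⟨x, y, z⟩ := q
    simp only [QName.val]
    split_ifs with h1 h2
    · have e : ((x - y - 1 : ℕ) : ℚ) + 1 = (x : ℚ) - y := by
        have : x = (x - y - 1) + 1 + y := by omega
        conv_rhs => rw [this]
        push_cast; ring
      simp only [e, inv_div]
      push_cast; simp
    · have e : ((y - x - 1 : ℕ) : ℚ) + 1 = (y : ℚ) - x := by
        have : y = (y - x - 1) + 1 + x := by omega
        conv_rhs => rw [this]
        push_cast; ring
      simp only [e, inv_div]
      push_cast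
      rw [← neg_sub (y : ℚ) x, div_neg]
      ring
    · have : x = y := by omega
      simp [this]

theorem div {r s : α → ℚ} (hr : CQ r) (hs : CQ s) : CQ (fun a => r a / s a) :=
  (hr.mul hs.inv).of_eq (fun a => by ring)

theorem const (q : ℚ) : CQ (fun _ : α => q) := by
  have h : q = ((q.num.toNat : ℚ) - ((-q.num).toNat : ℚ)) / (q.den : ℚ) := by
    conv_lhs => rw [← Rat.num_div_den q]
    congr 1
    have := Int.toNat_sub_toNat_neg q.num
    exact_mod_cast this.symm
  exact (((nat (Computable.const _)).sub (nat (Computable.const _))).div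
    (nat (Computable.const _))).of_eq (fun _ => h.symm)

theorem abs {r : α → ℚ} (hr : CQ r) : CQ (fun a => |r a|) :=
  (ite hr.nonneg hr hr.neg).of_eq (fun a => by
    split_ifs with h
    · exact (abs_of_nonneg h).symm
    · exact (abs_of_neg (not_le.mp h)).symm)

theorem max {r s : α → ℚ} (hr : CQ r) (hs : CQ s) : CQ (fun a => max (r a) (s a)) :=
  (ite (hr.le hs) hs hr).of_eq (fun _ => (max_def _ _).symm)

theorem floor {r : α → ℚ} (hr : CQ r) : CQ (fun a => ((⌊r a⌋ : ℤ) : ℚ)) := by
  obtain ⟨g, hg, hr⟩ := hr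
  have one : Computable (fun _ : α => 1) := Computable.const 1
  refine ((nat (cdiv (cadd (q1.comp hg) (cmul (q2.comp hg) (q3.comp hg)))
    (cadd (q3.comp hg) one))).sub (nat (q2.comp hg))).of_eq (fun a => ?_)
  rw [← hr]
  generalize g a = q
  obtain ⟨x, y, z⟩ := q
  simp only [QName.val]
  have e : ((x : ℚ) - y) / (z + 1) = ((x + y * z : ℕ) : ℚ) / ((z + 1 : ℕ) : ℚ) - (y : ℕ) := by
    push_cast; field_simp; ring
  rw [e, Int.floor_sub_natCast, Rat.floor_natCast_div_natCast]
  push_cast
  rfl

theorem round {r : α → ℚ} (hr : CQ r) : CQ (fun a => ((round (r a) : ℤ) : ℚ)) :=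
  (hr.add (const (1 / 2))).floor.of_eq (fun a => by rw [round_eq])

theorem natRec {n : α → ℕ} (hn : Computable n) {r0 : α → ℚ} (h0 : CQ r0) {H : α → ℕ → ℚ → ℚ}
    (hH : CQ (fun p : α × ℕ × QName => H p.1 p.2.1 p.2.2.val)) :
    CQ (fun a => Nat.rec (motive := fun _ => ℚ) (r0 a) (fun y IH => H a y IH) (n a)) := by
  obtain ⟨g, hg, h0⟩ := h0
  obtain ⟨k, hk, hH⟩ := hH
  refine ⟨fun a => Nat.rec (motive := fun _ => QName) (g a) (fun y IH => k (a, y, IH)) (n a),
    Computable.nat_rec (h := fun a p => k (a, p)) hn hg hk, fun a => ?_⟩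
  beta_reduce
  induction n a with
  | zero => exact h0 a
  | succ m ih => simp only [hH, ih]

theorem sum_range {n : α → ℕ} (hn : Computable n) {r : α → ℕ → ℚ}
    (hr : CQ (fun p : α × ℕ => r p.1 p.2)) : CQ (fun a => ∑ i ∈ Finset.range (n a), r a i) := by
  have := natRec hn (const 0) (H := fun a y IH => IH + r a y)
    ((ofName (Computable.snd.comp Computable.snd)).add
      (hr.comp (Computable.fst.pair (Computable.fst.comp Computable.snd))))
  refine this.of_eq (fun a => ?_)
  induction n a with
  | zero => simp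
  | succ m ih => simp only [Finset.sum_range_succ, ← ih]

theorem pow {r : α → ℚ} (hr : CQ r) {n : α → ℕ} (hn : Computable n) : CQ (fun a => r a ^ n a) := by
  have := natRec hn (const 1) (H := fun a _ IH => IH * r a)
    ((ofName (Computable.snd.comp Computable.snd)).mul (hr.comp Computable.fst))
  refine this.of_eq (fun a => ?_)
  induction n a with
  | zero => simp
  | succ m ih => simp only [pow_succ, ← ih]

theorem bound {r : α → ℚ} (hr : CQ r) : ∃ B : α → ℕ, Computable B ∧ ∀ a, |r a| ≤ B a := by
  obtain ⟨g, hg, hr⟩ := hr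
  refine ⟨fun a => (g a).1 + (g a).2.1, cadd (q1.comp hg) (q2.comp hg), fun a => ?_⟩
  beta_reduce
  rw [← hr]
  generalize g a = q
  obtain ⟨x, y, z⟩ := q
  simp only [QName.val]
  rw [abs_div, abs_of_pos (by positivity : (0 : ℚ) < z + 1), div_le_iff₀ (by positivity)]
  have h1 : |(x : ℚ) - y| ≤ x + y := by
    rw [abs_le]; constructor <;> linarith [(Nat.cast_nonneg x : (0 : ℚ) ≤ x),
      (Nat.cast_nonneg y : (0 : ℚ) ≤ y)]
  push_cast
  nlinarith [(Nat.cast_nonneg x : (0 : ℚ) ≤ x), (Nat.cast_nonneg y : (0 : ℚ) ≤ y),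
    (Nat.cast_nonneg z : (0 : ℚ) ≤ z)]

end CQ

end Vale.Agent.P113
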