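import Vale.Agent.P113.CompQ

/-! Computable real valued families. -/

namespace Vale.Agent.P113

variable {α β : Type} [Primcodable α] [Primcodable β]

/-- A real valued function with computable rational approximations. -/
def CR (F : α → ℝ) : Prop :=
  ∃ r : α × ℕ → ℚ, CQ r ∧ ∀ a n, |(r (a, n) : ℝ) - F a| ≤ 1 / ((n : ℝ) + 1)

namespace CR

theorem of_eq {F G : α → ℝ} (h : CR F) (e : ∀ a, F a = G a) : CR G := by
  obtain ⟨r, hr, h⟩ := h
  exact ⟨r, hr, fun a n => e a ▸ h a n⟩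

theorem comp {F : β → ℝ} (h : CR F) {f : α → β} (hf : Computable f) : CR (fun a => F (f a)) := by
  obtain ⟨r, hr, h⟩ := h
  exact ⟨fun p => r (f p.1, p.2), hr.comp ((hf.comp Computable.fst).pair Computable.snd),
    fun a n => h _ _⟩

theorem ofCQ {r : α → ℚ} (hr : CQ r) : CR (fun a => (r a : ℝ)) :=
  ⟨fun p => r p.1, hr.comp Computable.fst, fun a n => by simp; positivity⟩

theorem nat {f : α → ℕ} (hf : Computable f) : CR (fun a => (f a : ℝ)) :=
  (ofCQ (CQ.nat hf)).of_eq (fun a => by simp)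

theorem const (q : ℚ) : CR (fun _ : α => (q : ℝ)) := ofCQ (CQ.const q)

theorem zero : CR (fun _ : α => (0 : ℝ)) := (const 0).of_eq (fun _ => by simp)

theorem one : CR (fun _ : α => (1 : ℝ)) := (const 1).of_eq (fun _ => by simp)

theorem ofReal {x : ℝ} (h : ComputableReal x) : CR (fun _ : α => x) := by
  obtain ⟨g, hg, h⟩ := h
  exact ⟨fun p => (g p.2).val, CQ.ofName (hg.comp Computable.snd), fun _ n => h n⟩

/-- Approximations at a computably chosen precision. -/
theorem prec {r : α × ℕ → ℚ} (hr : CQ r) {m : α × ℕ → ℕ} (hm : Computable m) :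
    CQ (fun p : α × ℕ => r (p.1, m p)) := hr.comp (Computable.fst.pair hm)

theorem lim {F : α → ℝ} {G : α × ℕ → ℝ} (hG : CR G)
    (h : ∀ a n, |G (a, n) - F a| ≤ 1 / ((n : ℝ) + 1)) : CR F := by
  obtain ⟨r, hr, hG⟩ := hG
  have hm : Computable (fun p : α × ℕ => 2 * p.2 + 1) :=
    cadd (cmul (Computable.const 2) Computable.snd) (Computable.const 1)
  refine ⟨fun p => r ((p.1, 2 * p.2 + 1), 2 * p.2 + 1),
    hr.comp ((Computable.fst.pair hm).pair hm), fun a n => ?_⟩
  have h1 := hG (a, 2 * n + 1) (2 * n + 1)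
  have h2 := h a (2 * n + 1)
  have e : 1 / (((2 * n + 1 : ℕ) : ℝ) + 1) + 1 / (((2 * n + 1 : ℕ) : ℝ) + 1) = 1 / ((n : ℝ) + 1) := by
    push_cast; field_simp; ring
  calc _ ≤ _ := abs_sub_le _ (G (a, 2 * n + 1)) _
    _ ≤ _ := add_le_add h1 h2
    _ = _ := e

theorem add {F G : α → ℝ} (hF : CR F) (hG : CR G) : CR (fun a => F a + G a) := by
  obtain ⟨r, hr, hF⟩ := hF
  obtain ⟨s, hs, hG⟩ := hG
  have hm : Computable (fun p : α × ℕ => 2 * p.2 + 1) :=
    cadd (cmul (Computable.const 2) Computable.snd) (Computable.const 1)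
  refine ⟨fun p => r (p.1, 2 * p.2 + 1) + s (p.1, 2 * p.2 + 1),
    (prec hr hm).add (prec hs hm), fun a n => ?_⟩
  have h1 := hF a (2 * n + 1)
  have h2 := hG a (2 * n + 1)
  have e : 1 / (((2 * n + 1 : ℕ) : ℝ) + 1) + 1 / (((2 * n + 1 : ℕ) : ℝ) + 1) = 1 / ((n : ℝ) + 1) := by
    push_cast; field_simp; ring
  rw [← e]
  push_cast at h1 h2 ⊢
  rw [abs_le] at *
  constructor <;> linarith [h1.1, h1.2, h2.1, h2.2]

theorem neg {F : α → ℝ} (hF : CR F) : CR (fun a => - F a) := by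
  obtain ⟨r, hr, hF⟩ := hF
  refine ⟨fun p => - r p, hr.neg, fun a n => ?_⟩
  have h1 := hF a n
  push_cast
  rw [abs_le] at *
  constructor <;> linarith [h1.1, h1.2]

theorem sub {F G : α → ℝ} (hF : CR F) (hG : CR G) : CR (fun a => F a - G a) :=
  (hF.add hG.neg).of_eq (fun a => by ring)

theorem bound {F : α → ℝ} (hF : CR F) : ∃ B : α → ℕ, Computable B ∧ ∀ a, |F a| ≤ B a := by
  obtain ⟨r, hr, hF⟩ := hF
  obtain ⟨B, hB, h⟩ := (hr.comp (Computable.id.pair (Computable.const 0))).bound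
  refine ⟨fun a => B a + 1, cadd hB (Computable.const 1), fun a => ?_⟩
  have h1 := hF a 0
  have h2 : |(r (a, 0) : ℝ)| ≤ B a := by exact_mod_cast h a
  push_cast at h1 ⊢
  rw [abs_le] at *
  constructor <;> linarith [h1.1, h1.2, h2.1, h2.2]

theorem one_div_le_one (n : ℕ) : 1 / ((n : ℝ) + 1) ≤ 1 := by
  rw [div_le_one (by positivity)]; linarith [(Nat.cast_nonneg n : (0 : ℝ) ≤ n)]

theorem mul {F G : α → ℝ} (hF : CR F) (hG : CR G) : CR (fun a => F a * G a) := by
  obtain ⟨B, hB, hFB⟩ := hF.bound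
  obtain ⟨C, hC, hGC⟩ := hG.bound
  obtain ⟨r, hr, hF⟩ := hF
  obtain ⟨s, hs, hG⟩ := hG
  have hm : Computable (fun p : α × ℕ => (B p.1 + C p.1 + 1) * (p.2 + 1)) :=
    cmul (cadd (cadd (hB.comp Computable.fst) (hC.comp Computable.fst)) (Computable.const 1))
      (cadd Computable.snd (Computable.const 1))
  refine ⟨fun p => r (p.1, (B p.1 + C p.1 + 1) * (p.2 + 1)) * s (p.1, (B p.1 + C p.1 + 1) * (p.2 + 1)),
    (prec hr hm).mul (prec hs hm), fun a n => ?_⟩
  set m := (B a + C a + 1) * (n + 1) with hmdef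
  have h1 := hF a m
  have h2 := hG a m
  have h3 : |(s (a, m) : ℝ)| ≤ C a + 1 := by
    have := abs_sub_le (s (a, m) : ℝ) (G a) 0
    simp only [sub_zero] at this
    linarith [hGC a, one_div_le_one m]
  push_cast
  have e : (r (a, m) : ℝ) * s (a, m) - F a * G a
      = ((r (a, m) : ℝ) - F a) * s (a, m) + F a * (s (a, m) - G a) := by ring
  rw [e]
  have hpos : (0 : ℝ) < 1 / ((m : ℝ) + 1) := by positivity
  calc _ ≤ |((r (a, m) : ℝ) - F a) * s (a, m)| + |F a * (s (a, m) - G a)| := abs_add_le _ _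
    _ ≤ 1 / ((m : ℝ) + 1) * (C a + 1) + B a * (1 / ((m : ℝ) + 1)) := by
        rw [abs_mul, abs_mul]
        gcongr
        exact hFB a
    _ = ((B a + C a + 1 : ℕ) : ℝ) / ((m : ℝ) + 1) := by push_cast; ring
    _ ≤ 1 / ((n : ℝ) + 1) := by
        rw [div_le_div_iff₀ (by positivity) (by positivity), hmdef]
        push_cast
        linarith

theorem ite {p : α → Prop} [DecidablePred p] (hp : ComputablePred p) {F G : α → ℝ}
    (hF : CR F) (hG : CR G) : CR (fun a => if p a then F a else G a) := by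
  obtain ⟨r, hr, hF⟩ := hF
  obtain ⟨s, hs, hG⟩ := hG
  refine ⟨fun q => if p q.1 then r q else s q, CQ.ite (cpcomp hp Computable.fst) hr hs,
    fun a n => ?_⟩
  by_cases h : p a
  · simpa [h] using hF a n
  · simpa [h] using hG a n

theorem sum_range {k : α → ℕ} (hk : Computable k) {F : α → ℕ → ℝ}
    (hF : CR (fun p : α × ℕ => F p.1 p.2)) : CR (fun a => ∑ i ∈ Finset.range (k a), F a i) := by
  obtain ⟨r, hr, hF⟩ := hF
  have hm : Computable (fun p : (α × ℕ) × ℕ => k p.1.1 * (p.1.2 + 1)) :=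
    cmul (hk.comp (Computable.fst.comp Computable.fst))
      (cadd (Computable.snd.comp Computable.fst) (Computable.const 1))
  refine ⟨fun p => ∑ i ∈ Finset.range (k p.1), r ((p.1, i), k p.1 * (p.2 + 1)),
    CQ.sum_range (r := fun p i => r ((p.1, i), k p.1 * (p.2 + 1))) (hk.comp Computable.fst)
      (hr.comp (((Computable.fst.comp Computable.fst).pair Computable.snd).pair hm)), fun a n => ?_⟩
  push_cast
  rw [← Finset.sum_sub_distrib]
  refine le_trans (Finset.abs_sum_le_sum_abs _ _) ?_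
  refine le_trans (Finset.sum_le_sum (fun i _ => hF (a, i) (k a * (n + 1)))) ?_
  rw [Finset.sum_const, Finset.card_range, nsmul_eq_mul, mul_one_div,
    div_le_div_iff₀ (by positivity) (by positivity)]
  push_cast
  linarith

theorem pow {F : α → ℝ} (hF : CR F) {k : α → ℕ} (hk : Computable k) :
    CR (fun a => F a ^ k a) := by
  obtain ⟨B, hB, hFB⟩ := hF.bound
  obtain ⟨r, hr, hF⟩ := hF
  have hm : Computable (fun p : α × ℕ => k p.1 * (B p.1 + 1) ^ (k p.1 - 1) * (p.2 + 1)) :=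
    cmul (cmul (hk.comp Computable.fst) (cpow (cadd (hB.comp Computable.fst) (Computable.const 1))
      (csub (hk.comp Computable.fst) (Computable.const 1))))
      (cadd Computable.snd (Computable.const 1))
  refine ⟨fun p => r (p.1, k p.1 * (B p.1 + 1) ^ (k p.1 - 1) * (p.2 + 1)) ^ k p.1,
    (prec hr hm).pow (hk.comp Computable.fst), fun a n => ?_⟩
  set m := k a * (B a + 1) ^ (k a - 1) * (n + 1) with hmdef
  have h1 := hF a m
  have h3 : |(r (a, m) : ℝ)| ≤ B a + 1 := by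
    have := abs_sub_le (r (a, m) : ℝ) (F a) 0
    simp only [sub_zero] at this
    linarith [hFB a, one_div_le_one m]
  have h4 : max |(r (a, m) : ℝ)| |F a| ≤ B a + 1 := max_le h3 (by linarith [hFB a])
  push_cast
  calc _ ≤ |(r (a, m) : ℝ) - F a| * k a * max |(r (a, m) : ℝ)| |F a| ^ (k a - 1) :=
        abs_pow_sub_pow_le ..
    _ ≤ 1 / ((m : ℝ) + 1) * k a * ((B a : ℝ) + 1) ^ (k a - 1) := by gcongr
    _ = (k a * ((B a : ℝ) + 1) ^ (k a - 1)) / ((m : ℝ) + 1) := by ring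
    _ ≤ 1 / ((n : ℝ) + 1) := by
        rw [div_le_div_iff₀ (by positivity) (by positivity), hmdef]
        push_cast
        linarith

theorem inv {F : α → ℝ} (hF : CR F) (h1 : ∀ a, 1 ≤ F a) : CR (fun a => (F a)⁻¹) := by
  obtain ⟨r, hr, hF⟩ := hF
  refine ⟨fun p => (max (r p) 1)⁻¹, (hr.max (CQ.const 1)).inv, fun a n => ?_⟩
  refine le_trans ?_ (hF a n)
  push_cast
  have a1 : (1 : ℝ) ≤ max (r (a, n) : ℝ) 1 := le_max_right _ _
  have a2 := h1 a
  have a3 : |max (r (a, n) : ℝ) 1 - F a| ≤ |(r (a, n) : ℝ) - F a| := by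
    have := abs_max_sub_max_le_abs (r (a, n) : ℝ) (F a) 1
    rwa [max_eq_left a2] at this
  refine le_trans ?_ a3
  set y := max (r (a, n) : ℝ) 1
  have e : y⁻¹ - (F a)⁻¹ = -(y - F a) / (y * F a) := by field_simp; ring
  rw [e, abs_div, abs_neg, abs_of_pos (by positivity : 0 < y * F a)]
  exact div_le_self (abs_nonneg _) (by nlinarith)

theorem exp {r : α → ℚ} (hr : CQ r) : CR (fun a => Real.exp (r a)) := by
  classical
  let P : α × ℕ → ℕ → Prop := fun p m =>
    |r p.1| / ((m : ℚ) + 1) ≤ 1 / 2 ∧ |r p.1| ^ m / (m.factorial : ℚ) * 2 ≤ 1 / ((p.2 : ℚ) + 1)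
  have hra : CQ (fun q : (α × ℕ) × ℕ => |r q.1.1|) :=
    (hr.comp (Computable.fst.comp Computable.fst)).abs
  have hP : ComputablePred (fun q : (α × ℕ) × ℕ => P q.1 q.2) :=
    cand ((hra.div ((CQ.nat Computable.snd).add (CQ.const 1))).le (CQ.const _))
      ((((hra.pow Computable.snd).div (CQ.nat (cfactorial.comp Computable.snd))).mul
        (CQ.const 2)).le ((CQ.const 1).div
          ((CQ.nat (Computable.snd.comp Computable.fst)).add (CQ.const 1))))
  have hex : ∀ p, ∃ m, P p m := by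
    intro p
    have t1 : Filter.Tendsto (fun m : ℕ => |(r p.1 : ℝ)| ^ m / (m.factorial : ℝ)) Filter.atTop
        (nhds 0) := FloorSemiring.tendsto_pow_div_factorial_atTop _
    have t2 : Filter.Tendsto (fun m : ℕ => |(r p.1 : ℝ)| / ((m : ℝ) + 1)) Filter.atTop
        (nhds 0) := by
      simpa [div_eq_mul_inv] using
        (tendsto_one_div_add_atTop_nhds_zero_nat (𝕜 := ℝ)).const_mul |(r p.1 : ℝ)|
    have e1 := t1.eventually (ge_mem_nhds (by positivity : (0 : ℝ) < 1 / ((p.2 : ℝ) + 1) / 2))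
    have e2 := t2.eventually (ge_mem_nhds (by norm_num : (0 : ℝ) < 1 / 2))
    obtain ⟨m, h1, h2⟩ := (e1.and e2).exists
    refine ⟨m, ?_, ?_⟩
    · have : ((|r p.1| / ((m : ℚ) + 1) : ℚ) : ℝ) ≤ ((1 / 2 : ℚ) : ℝ) := by
        push_cast; exact h2
      exact_mod_cast this
    · have : ((|r p.1| ^ m / (m.factorial : ℚ) * 2 : ℚ) : ℝ) ≤ ((1 / ((p.2 : ℚ) + 1) : ℚ) : ℝ) := by
        push_cast; linarith
      exact_mod_cast this
  have hN : Computable (fun p => Nat.find (hex p)) := Computable.find hP hex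
  refine ⟨fun p => ∑ i ∈ Finset.range (Nat.find (hex p)), r p.1 ^ i / (i.factorial : ℚ),
    CQ.sum_range (r := fun p i => r p.1 ^ i / (i.factorial : ℚ)) hN
      (((hr.comp (Computable.fst.comp Computable.fst)).pow Computable.snd).div
        (CQ.nat (cfactorial.comp Computable.snd))), fun a n => ?_⟩
  obtain ⟨h1, h2⟩ := Nat.find_spec (hex (a, n))
  set m := Nat.find (hex (a, n))
  have h1' : |(r a : ℝ)| / ((m : ℝ) + 1) ≤ 1 / 2 := by
    have : ((|r a| / ((m : ℚ) + 1) : ℚ) : ℝ) ≤ ((1 / 2 : ℚ) : ℝ) := by exact_mod_cast h1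
    push_cast at this; exact this
  have h2' : |(r a : ℝ)| ^ m / (m.factorial : ℝ) * 2 ≤ 1 / ((n : ℝ) + 1) := by
    have : ((|r a| ^ m / (m.factorial : ℚ) * 2 : ℚ) : ℝ) ≤ ((1 / ((n : ℚ) + 1) : ℚ) : ℝ) := by
      exact_mod_cast h2
    push_cast at this; exact this
  have h3 := Complex.exp_bound' (x := ((r a : ℝ) : ℂ)) (n := m) (by
    rw [Complex.norm_real, Real.norm_eq_abs]; push_cast; exact h1')
  have h4 : |Real.exp (r a) - ∑ i ∈ Finset.range m, (r a : ℝ) ^ i / (i.factorial : ℝ)|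
      ≤ |(r a : ℝ)| ^ m / (m.factorial : ℝ) * 2 := by
    rw [Complex.norm_real, Real.norm_eq_abs] at h3
    refine le_trans (le_of_eq ?_) h3
    rw [← Real.norm_eq_abs, ← Complex.norm_real]
    push_cast
    rfl
  rw [abs_sub_comm]
  push_cast
  exact le_trans h4 h2'

end CR

end Vale.Agent.P113
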