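import Mathlib

namespace Vale.Agent.P113

open Set

/-! ### The torus, fields and derivatives

Functions on the torus are written as functions on `ℝ^3` that are 1-periodic in each coordinate. -/

/-- `ℝ^3`, the universal cover of the torus. -/
abbrev Space : Type := Fin 3 → ℝ

/-- The flat torus `(ℝ/ℤ)^3`. -/
abbrev Torus : Type := Fin 3 → AddCircle (1 : ℝ)

/-- The covering map `ℝ^3 → (ℝ/ℤ)^3`. -/
def proj (x : Space) : Torus := fun i => ((x i : ℝ) : AddCircle (1 : ℝ))

/-- A function on `ℝ^3` that descends to the torus. -/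
def Periodic3 (g : Space → ℝ) : Prop :=
  ∀ (x : Space) (j : Fin 3), g (Function.update x j (x j + 1)) = g x

/-- Component `i` of a time dependent vector field. -/
def comp (u : ℝ → Space → Space) (i : Fin 3) : ℝ → Space → ℝ := fun t x => u t x i

/-- Partial derivative in the space variable `x j`. -/
noncomputable def dx (j : Fin 3) (g : ℝ → Space → ℝ) : ℝ → Space → ℝ :=
  fun t x => deriv (fun s => g t (Function.update x j s)) (x j)

/-- Partial derivative in time. -/
noncomputable def dt (g : ℝ → Space → ℝ) : ℝ → Space → ℝ :=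
  fun t x => deriv (fun s => g s x) t

/-- Partial derivative in time within `[0, T]` (one sided at the two ends). -/
noncomputable def dtOn (T : ℝ) (g : ℝ → Space → ℝ) : ℝ → Space → ℝ :=
  fun t x => derivWithin (fun s => g s x) (Icc 0 T) t

/-- A mixed derivative: `none` is a time derivative and `some j` a derivative in `x j`. -/
noncomputable def mixed : List (Option (Fin 3)) → (ℝ → Space → ℝ) → ℝ → Space → ℝ
  | [], g => g
  | none :: l, g => dt (mixed l g)
  | some j :: l, g => dx j (mixed l g)

/-- Jointly smooth in time and space. -/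
def Smooth (g : ℝ → Space → ℝ) : Prop :=
  ContDiff ℝ ((⊤ : ℕ∞) : WithTop ℕ∞) (fun z : ℝ × Space => g z.1 z.2)

/-- Jointly continuous on `[0, T] × ℝ^3`. -/
def ContOn (T : ℝ) (g : ℝ → Space → ℝ) : Prop :=
  ContinuousOn (fun z : ℝ × Space => g z.1 z.2) (Icc 0 T ×ˢ univ)

/-- The partial derivative in `x j` exists everywhere on `[0, T] × ℝ^3`. -/
def DiffX (T : ℝ) (j : Fin 3) (g : ℝ → Space → ℝ) : Prop :=
  ∀ t ∈ Icc 0 T, ∀ x : Space, DifferentiableAt ℝ (fun s => g t (Function.update x j s)) (x j)

/-- `(u, p)` is a classical solution on `[0, T] × T^3` of the forced Navier-Stokes system with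
viscosity `ν`, force `f` and zero initial velocity. -/
structure IsClassical (ν : ℝ) (f : ℝ → Space → Space) (T : ℝ)
    (u : ℝ → Space → Space) (p : ℝ → Space → ℝ) : Prop where
  periodic_u : ∀ t ∈ Icc 0 T, ∀ i, Periodic3 (comp u i t)
  periodic_p : ∀ t ∈ Icc 0 T, Periodic3 (p t)
  diff_t : ∀ t ∈ Icc 0 T, ∀ x i, DifferentiableWithinAt ℝ (fun s => comp u i s x) (Icc 0 T) t
  diff_x : ∀ i j, DiffX T j (comp u i)
  diff_xx : ∀ i j k, DiffX T k (dx j (comp u i))
  diff_p : ∀ j, DiffX T j p
  cont_u : ∀ i, ContOn T (comp u i)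
  cont_t : ∀ i, ContOn T (dtOn T (comp u i))
  cont_x : ∀ i j, ContOn T (dx j (comp u i))
  cont_xx : ∀ i j k, ContOn T (dx k (dx j (comp u i)))
  cont_p : ContOn T p
  cont_px : ∀ j, ContOn T (dx j p)
  momentum : ∀ t ∈ Icc 0 T, ∀ x i,
    dtOn T (comp u i) t x + ∑ j, comp u j t x * dx j (comp u i) t x
      = - dx i p t x + ν * ∑ j, dx j (dx j (comp u i)) t x + comp f i t x
  incompressible : ∀ t ∈ Icc 0 T, ∀ x, ∑ j, dx j (comp u j) t x = 0
  initial : ∀ x, u 0 x = 0
  mean_zero : ∀ t ∈ Icc 0 T, ∫ x in Icc (0 : Space) 1, p t x = 0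

/-- `X` is (a lift to `ℝ^3` of) a particle trajectory of `u` starting at `a`. -/
def IsTrajectory (u : ℝ → Space → Space) (a : Space) (X : ℝ → Space) : Prop :=
  X 0 = a ∧ ∀ t, 0 ≤ t → HasDerivWithinAt X (u t (X t)) (Ici 0) t

/-! ### Turing machines -/

/-- A machine: the number of tape symbols, and the list of states. A state is `none` (halting) or
`some row`, where entry `a` of `row` is the action (new state, written symbol, move) on reading
the symbol `a`; the moves `0, 1, 2` shift the head by `-1, 0, 1`.
The blank is the symbol `0` and the start state is `0`. -/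
abbrev Machine : Type := ℕ × List (Option (List (ℕ × ℕ × Fin 3)))

/-- The table is complete and refers only to existing states and symbols. -/
def WellFormed (M : Machine) : Prop :=
  0 < M.1 ∧ 0 < M.2.length ∧
    ∀ row, some row ∈ M.2 → row.length = M.1 ∧ ∀ e ∈ row, e.1 < M.2.length ∧ e.2.1 < M.1

/-- `w` is a word over the alphabet of `M`. -/
def IsInput (M : Machine) (w : List ℕ) : Prop := ∀ a ∈ w, a < M.1

/-- A configuration: state, two-sided tape, head position. -/
structure Cfg where
  state : ℕ
  tape : ℤ → ℕ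
  head : ℤ

/-- One step; a configuration in a halting state is left unchanged. -/
def step (M : Machine) (c : Cfg) : Cfg :=
  match M.2[c.state]? with
  | some (some row) =>
    match row[c.tape c.head]? with
    | some e => ⟨e.1, Function.update c.tape c.head e.2.1, c.head + ((e.2.2 : ℕ) : ℤ) - 1⟩
    | none => c
  | _ => c

/-- The initial configuration: `w` on cells `0, 1, …`, blanks elsewhere, head on cell `0`. -/
def startCfg (w : List ℕ) : Cfg := ⟨0, fun i => if 0 ≤ i then w.getD i.toNat 0 else 0, 0⟩

/-- `M` reaches a halting state on input `w` after finitely many steps, possibly none. -/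
def Halts (M : Machine) (w : List ℕ) : Prop :=
  ∃ n : ℕ, M.2[((step M)^[n] (startCfg w)).state]? = some none

/-! ### Effectivity -/

/-- Names of rational numbers: `(a, b, c)` names `(a - b) / (c + 1)`. -/
abbrev QName : Type := ℕ × ℕ × ℕ

/-- The rational number named by `(a, b, c)`. -/
def QName.val (q : QName) : ℚ := ((q.1 : ℚ) - (q.2.1 : ℚ)) / ((q.2.2 : ℚ) + 1)

/-- A computable real number. -/
def ComputableReal (r : ℝ) : Prop :=
  ∃ g : ℕ → QName, Computable g ∧ ∀ n : ℕ, |((g n).val : ℝ) - r| ≤ 1 / ((n : ℝ) + 1)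

/-- The program `c`, given a component `i`, a list `l` of differentiation directions, a rational
point `(t, x, y, z)` and a rational accuracy `ε > 0`, halts and returns a rational within `ε` of
the mixed derivative of `f i` at that point. -/
def Computes (c : Nat.Partrec.Code) (f : ℝ → Space → Space) : Prop :=
  ∀ (i : Fin 3) (l : List (Option (Fin 3))) (t x y z ε : QName), 0 < ε.val →
    ∃ r : QName, Encodable.encode r ∈ c.eval (Encodable.encode (i, l, t, x, y, z, ε)) ∧
      |(r.val : ℝ) - mixed l (comp f i) (t.val : ℝ) ![(x.val : ℝ), (y.val : ℝ), (z.val : ℝ)]|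
        ≤ (ε.val : ℝ)

end Vale.Agent.P113
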