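import Vale.Agent.P113.CompR

/-! Effective smooth functions of one real variable. -/

namespace Vale.Agent.P113

open Set Real

variable {α β : Type} [Primcodable α] [Primcodable β]

/-- Smoothness order. -/
abbrev inf : WithTop ℕ∞ := ((⊤ : ℕ∞) : WithTop ℕ∞)

theorem le_inf' (n : ℕ) : (n : WithTop ℕ∞) ≤ inf := by
  unfold inf
  exact_mod_cast le_top

/-- A family of smooth functions with uniformly computable derivatives at rational points. -/
def Eff1 (G : α → ℝ → ℝ) : Prop :=
  (∀ a, ContDiff ℝ inf (G a)) ∧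
    CR (fun p : α × ℕ × QName => iteratedDeriv p.2.1 (G p.1) (p.2.2.val : ℝ))

/-- Periodization of a function supported in `(-3/8, 3/8)`. -/
noncomputable def perio (G : ℝ → ℝ) : ℝ → ℝ := fun y => G (y - round y)

theorem perio_eq {G : ℝ → ℝ} (hG : ∀ s, 3 / 8 ≤ |s| → G s = 0) (y : ℝ) (m : ℤ)
    (h : |y - m| ≤ 5 / 8) : perio G y = G (y - m) := by
  unfold perio
  by_cases hm : round y = m
  · rw [hm]
  · have h1 := abs_sub_round y
    have h2 : (1 : ℝ) ≤ |((round y : ℤ) : ℝ) - m| := by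
      have : (1 : ℤ) ≤ |round y - m| := Int.one_le_abs (sub_ne_zero.mpr hm)
      exact_mod_cast this
    have h3 : |((round y : ℤ) : ℝ) - m| ≤ |y - round y| + |y - m| := by
      have := abs_sub_le ((round y : ℤ) : ℝ) y m
      rwa [abs_sub_comm ((round y : ℤ) : ℝ) y] at this
    rw [hG _ (by linarith), hG _ (by linarith)]

theorem perio_eventually {G : ℝ → ℝ} (hG : ∀ s, 3 / 8 ≤ |s| → G s = 0) (y : ℝ) :
    perio G =ᶠ[nhds y] fun s => G (s - round y) := by
  filter_upwards [Metric.ball_mem_nhds y (by norm_num : (0 : ℝ) < 1 / 8)] with s hs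
  refine perio_eq hG s _ ?_
  have h1 := abs_sub_round y
  have h2 : |s - y| < 1 / 8 := by simpa [Real.dist_eq] using hs
  have := abs_sub_le s y (round y)
  linarith

theorem perio_add_one (G : ℝ → ℝ) (y : ℝ) : perio G (y + 1) = perio G y := by
  unfold perio
  rw [round_add_one]
  push_cast
  ring_nf

theorem perio_contDiff {G : ℝ → ℝ} (hG : ∀ s, 3 / 8 ≤ |s| → G s = 0) (hs : ContDiff ℝ inf G) :
    ContDiff ℝ inf (perio G) := by
  rw [contDiff_iff_contDiffAt]
  intro y
  refine ContDiffAt.congr_of_eventuallyEq ?_ (perio_eventually hG y)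
  exact (hs.comp (contDiff_id.sub contDiff_const)).contDiffAt

theorem perio_iteratedDeriv {G : ℝ → ℝ} (hG : ∀ s, 3 / 8 ≤ |s| → G s = 0) (k : ℕ) (y : ℝ) :
    iteratedDeriv k (perio G) y = iteratedDeriv k G (y - round y) := by
  rw [(perio_eventually hG y).iteratedDeriv_eq k, iteratedDeriv_comp_sub_const]

namespace Eff1

theorem of_eq {G H : α → ℝ → ℝ} (h : Eff1 G) (e : ∀ a r, G a r = H a r) : Eff1 H := by
  have : G = H := funext (fun a => funext (e a))
  exact this ▸ h

theorem eval {G : α → ℝ → ℝ} (h : Eff1 G) {f : β → α} (hf : Computable f) {k : β → ℕ}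
    (hk : Computable k) {x : β → ℚ} (hx : CQ x) :
    CR (fun b => iteratedDeriv (k b) (G (f b)) (x b : ℝ)) := by
  obtain ⟨g, hg, hx⟩ := hx
  exact (h.2.comp (hf.pair (hk.pair hg))).of_eq (fun b => by simp only [hx])

theorem comp {G : β → ℝ → ℝ} (h : Eff1 G) {f : α → β} (hf : Computable f) :
    Eff1 (fun a => G (f a)) :=
  ⟨fun _ => h.1 _, h.eval (hf.comp Computable.fst) (Computable.fst.comp Computable.snd)
    (CQ.ofName (Computable.snd.comp Computable.snd))⟩

theorem ck : Computable (fun p : α × ℕ × QName => p.2.1) := Computable.fst.comp Computable.snd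

theorem cx : CQ (fun p : α × ℕ × QName => p.2.2.val) :=
  CQ.ofName (Computable.snd.comp Computable.snd)

theorem const {c : α → ℝ} (hc : CR c) : Eff1 (fun a _ => c a) :=
  ⟨fun _ => contDiff_const, (CR.ite (ceq ck (Computable.const 0)) (hc.comp Computable.fst)
    CR.zero).of_eq (fun p => by rw [iteratedDeriv_const])⟩

theorem id : Eff1 (fun (_ : α) (r : ℝ) => r) :=
  ⟨fun _ => contDiff_id, (CR.ite (ceq ck (Computable.const 0)) (CR.ofCQ cx)
    (CR.ite (ceq ck (Computable.const 1)) CR.one CR.zero)).of_eq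
      (fun p => by rw [iteratedDeriv_fun_id])⟩

theorem add {G H : α → ℝ → ℝ} (hG : Eff1 G) (hH : Eff1 H) : Eff1 (fun a r => G a r + H a r) :=
  ⟨fun a => (hG.1 a).add (hH.1 a), (hG.2.add hH.2).of_eq (fun p => by
    rw [iteratedDeriv_fun_add ((hG.1 p.1).of_le (le_inf' _)).contDiffAt
      ((hH.1 p.1).of_le (le_inf' _)).contDiffAt])⟩

theorem mul {G H : α → ℝ → ℝ} (hG : Eff1 G) (hH : Eff1 H) : Eff1 (fun a r => G a r * H a r) := by
  refine ⟨fun a => (hG.1 a).mul (hH.1 a), ?_⟩
  have ca : Computable (fun q : (α × ℕ × QName) × ℕ => q.1.1) := Computable.fst.comp Computable.fst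
  have := CR.sum_range (α := α × ℕ × QName) (k := fun p => p.2.1 + 1)
    (F := fun p i => (p.2.1.choose i : ℝ) * iteratedDeriv i (G p.1) (p.2.2.val : ℝ)
      * iteratedDeriv (p.2.1 - i) (H p.1) (p.2.2.val : ℝ)) (cadd ck (Computable.const 1))
    (((CR.nat (cchoose (ck.comp Computable.fst) Computable.snd)).mul
      (hG.eval ca Computable.snd (cx.comp Computable.fst))).mul
      (hH.eval ca (csub (ck.comp Computable.fst) Computable.snd) (cx.comp Computable.fst)))
  refine this.of_eq (fun p => ?_)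
  rw [iteratedDeriv_fun_mul ((hG.1 p.1).of_le (le_inf' _)).contDiffAt
      ((hH.1 p.1).of_le (le_inf' _)).contDiffAt]

theorem affine {G : α → ℝ → ℝ} (hG : Eff1 G) {K m : α → ℚ} (hK : CQ K) (hm : CQ m) :
    Eff1 (fun a r => G a ((K a : ℝ) * r + (m a : ℝ))) := by
  refine ⟨fun a => (hG.1 a).comp ((contDiff_const.mul contDiff_id).add contDiff_const), ?_⟩
  have h1 := (CR.ofCQ ((hK.comp Computable.fst).pow ck)).mul
    (hG.eval Computable.fst ck (((hK.comp Computable.fst).mul cx).add (hm.comp Computable.fst)))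
  refine h1.of_eq (fun p => ?_)
  have h2 : ContDiff ℝ (p.2.1 : ℕ) (fun s => G p.1 (s + (m p.1 : ℝ))) :=
    ((hG.1 p.1).of_le (le_inf' _)).comp (contDiff_id.add contDiff_const)
  have h3 := iteratedDeriv_comp_const_mul h2 (K p.1 : ℝ)
  rw [h3, iteratedDeriv_comp_add_const]
  push_cast
  rfl

theorem deriv {G : α → ℝ → ℝ} (hG : Eff1 G) : Eff1 (fun a => deriv (G a)) :=
  ⟨fun a => (contDiff_infty_iff_deriv.mp (hG.1 a)).2,
    (hG.eval Computable.fst (cadd ck (Computable.const 1)) cx).of_eq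
      (fun p => by rw [iteratedDeriv_succ'])⟩

theorem perio {G : α → ℝ → ℝ} (hG : Eff1 G) (h0 : ∀ a s, 3 / 8 ≤ |s| → G a s = 0) :
    Eff1 (fun a => perio (G a)) := by
  refine ⟨fun a => perio_contDiff (h0 a) (hG.1 a), ?_⟩
  refine (hG.eval Computable.fst ck (cx.sub cx.round)).of_eq (fun p => ?_)
  rw [perio_iteratedDeriv (h0 p.1)]
  push_cast
  rw [Rat.round_cast]

end Eff1

/-! ### The smooth transition function -/

/-- A monomial `(p - n) Φ^i (1/t)^j (1/(1-t))^k`. -/
abbrev Mono : Type := ℕ × ℕ × ℕ × ℕ × ℕ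

/-- Closed form of the smooth transition on `(0,1)`. -/
noncomputable def phic (t : ℝ) : ℝ := (1 + Real.exp (t⁻¹ - (1 - t)⁻¹))⁻¹

/-- Value of a monomial. -/
noncomputable def evM (m : Mono) (t : ℝ) : ℝ :=
  ((m.1 : ℝ) - m.2.1) * phic t ^ m.2.2.1 * t⁻¹ ^ m.2.2.2.1 * (1 - t)⁻¹ ^ m.2.2.2.2

/-- Formal derivative of a monomial. -/
def dM (m : Mono) : List Mono :=
  [(m.1 * m.2.2.1, m.2.1 * m.2.2.1, m.2.2.1, m.2.2.2.1 + 2, m.2.2.2.2),
   (m.1 * m.2.2.1, m.2.1 * m.2.2.1, m.2.2.1, m.2.2.2.1, m.2.2.2.2 + 2),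
   (m.2.1 * m.2.2.1, m.1 * m.2.2.1, m.2.2.1 + 1, m.2.2.2.1 + 2, m.2.2.2.2),
   (m.2.1 * m.2.2.1, m.1 * m.2.2.1, m.2.2.1 + 1, m.2.2.2.1, m.2.2.2.2 + 2),
   (m.2.1 * m.2.2.2.1, m.1 * m.2.2.2.1, m.2.2.1, m.2.2.2.1 + 1, m.2.2.2.2),
   (m.1 * m.2.2.2.2, m.2.1 * m.2.2.2.2, m.2.2.1, m.2.2.2.1, m.2.2.2.2 + 1)]

/-- Value of a list of monomials. -/
noncomputable def evP (l : List Mono) (t : ℝ) : ℝ := (l.map (fun m => evM m t)).sum

/-- The `k`-th formal derivative of the smooth transition. -/
def polyK (k : ℕ) : List Mono := (fun l : List Mono => l.flatMap dM)^[k] [(1, 0, 1, 0, 0)]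

theorem phic_eq {t : ℝ} (ht : t ∈ Ioo (0 : ℝ) 1) : smoothTransition t = phic t := by
  have h1 : ¬ t ≤ 0 := not_le.mpr ht.1
  have h2 : ¬ 1 - t ≤ 0 := not_le.mpr (by linarith [ht.2])
  simp only [smoothTransition, expNegInvGlue, h1, h2, if_false, phic]
  rw [Real.exp_sub, Real.exp_neg, Real.exp_neg]
  have := Real.exp_pos t⁻¹
  have := Real.exp_pos (1 - t)⁻¹
  field_simp

theorem hasDerivAt_pow_nat {f : ℝ → ℝ} {c t : ℝ} (h : HasDerivAt f (f t * c) t) (i : ℕ) :
    HasDerivAt (fun s => f s ^ i) (i * f t ^ i * c) t := by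
  refine (h.fun_pow i).congr_deriv ?_
  cases i with
  | zero => simp
  | succ n => simp only [Nat.add_sub_cancel, pow_succ]; ring

theorem hasDerivAt_evM (m : Mono) {t : ℝ} (ht : t ∈ Ioo (0 : ℝ) 1) :
    HasDerivAt (evM m) (evP (dM m) t) t := by
  have h0 : t ≠ 0 := ht.1.ne'
  have h1 : 1 - t ≠ 0 := by linarith [ht.2]
  have dA : HasDerivAt (fun s : ℝ => s⁻¹) (t⁻¹ * (-t⁻¹)) t :=
    (hasDerivAt_inv h0).congr_deriv (by field_simp)
  have dB : HasDerivAt (fun s : ℝ => (1 - s)⁻¹) ((1 - t)⁻¹ * (1 - t)⁻¹) t :=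
    (((hasDerivAt_id t).const_sub 1).fun_inv h1).congr_deriv (by simp; field_simp)
  have hpos : 0 < 1 + Real.exp (t⁻¹ - (1 - t)⁻¹) := by positivity
  have dP : HasDerivAt phic (phic t * ((1 - phic t) * (t⁻¹ ^ 2 + (1 - t)⁻¹ ^ 2))) t := by
    refine ((((dA.fun_sub dB).exp).const_add 1).fun_inv hpos.ne').congr_deriv ?_
    unfold phic
    generalize Real.exp (t⁻¹ - (1 - t)⁻¹) = E at hpos ⊢
    generalize t⁻¹ = A
    generalize (1 - t)⁻¹ = B
    field_simp
    ring
  obtain ⟨p, n, i, j, k⟩ := m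
  have := (((hasDerivAt_pow_nat dP i).const_mul ((p : ℝ) - n)).fun_mul
    (hasDerivAt_pow_nat dA j)).fun_mul (hasDerivAt_pow_nat dB k)
  refine this.congr_deriv ?_
  simp only [evP, dM, evM, List.map_cons, List.map_nil, List.sum_cons, List.sum_nil]
  push_cast
  ring

theorem hasDerivAt_evP (l : List Mono) {t : ℝ} (ht : t ∈ Ioo (0 : ℝ) 1) :
    HasDerivAt (evP l) (evP (l.flatMap dM) t) t := by
  induction l with
  | nil => exact hasDerivAt_const t (0 : ℝ)
  | cons m l ih =>
    have := (hasDerivAt_evM m ht).fun_add ih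
    refine HasDerivAt.congr_deriv this ?_
    simp [evP]

theorem iteratedDeriv_phi_mid (k : ℕ) {t : ℝ} (ht : t ∈ Ioo (0 : ℝ) 1) :
    iteratedDeriv k smoothTransition t = evP (polyK k) t := by
  induction k generalizing t with
  | zero => simp [polyK, evP, evM, phic_eq ht]
  | succ k ih =>
    rw [iteratedDeriv_succ]
    have : iteratedDeriv k smoothTransition =ᶠ[nhds t] evP (polyK k) := by
      filter_upwards [Ioo_mem_nhds ht.1 ht.2] with s hs using ih hs
    rw [this.deriv_eq, (hasDerivAt_evP _ ht).deriv, polyK, polyK, Function.iterate_succ_apply']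

theorem phi_contDiff : ContDiff ℝ inf smoothTransition := smoothTransition.contDiff

theorem iteratedDeriv_phi_left (k : ℕ) {t : ℝ} (ht : t ≤ 0) :
    iteratedDeriv k smoothTransition t = 0 := by
  have hc : Continuous (iteratedDeriv k smoothTransition) :=
    phi_contDiff.continuous_iteratedDeriv k (le_inf' k)
  have h1 : EqOn (iteratedDeriv k smoothTransition) (fun _ => 0) (Iio 0) := by
    intro s hs
    have : EqOn smoothTransition (fun _ => 0) (Iio (0 : ℝ)) :=
      fun r hr => smoothTransition.zero_of_nonpos (le_of_lt hr)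
    rw [this.iteratedDeriv_of_isOpen isOpen_Iio k hs]
    simp
  have h2 := h1.closure hc continuous_const
  rw [closure_Iio] at h2
  exact h2 ht

theorem iteratedDeriv_phi_right (k : ℕ) {t : ℝ} (ht : 1 ≤ t) :
    iteratedDeriv k smoothTransition t = if k = 0 then 1 else 0 := by
  have hc : Continuous (iteratedDeriv k smoothTransition) :=
    phi_contDiff.continuous_iteratedDeriv k (le_inf' k)
  have h1 : EqOn (iteratedDeriv k smoothTransition) (fun _ => if k = 0 then 1 else 0) (Ioi 1) := by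
    intro s hs
    have : EqOn smoothTransition (fun _ => 1) (Ioi (1 : ℝ)) :=
      fun r hr => smoothTransition.one_of_one_le (le_of_lt hr)
    rw [this.iteratedDeriv_of_isOpen isOpen_Ioi k hs, iteratedDeriv_const]
  have h2 := h1.closure hc continuous_const
  rw [closure_Ioi] at h2
  exact h2 ht

theorem primrec_dM : Primrec dM := by
  have a : Primrec (fun m : Mono => m.1) := Primrec.fst
  have b : Primrec (fun m : Mono => m.2.1) := Primrec.fst.comp Primrec.snd
  have i : Primrec (fun m : Mono => m.2.2.1) := Primrec.fst.comp (Primrec.snd.comp Primrec.snd)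
  have j : Primrec (fun m : Mono => m.2.2.2.1) :=
    Primrec.fst.comp (Primrec.snd.comp (Primrec.snd.comp Primrec.snd))
  have k : Primrec (fun m : Mono => m.2.2.2.2) :=
    Primrec.snd.comp (Primrec.snd.comp (Primrec.snd.comp Primrec.snd))
  have mu := @Primrec.nat_mul
  have ad := @Primrec.nat_add
  have c1 : Primrec (fun _ : Mono => 1) := Primrec.const 1
  have c2 : Primrec (fun _ : Mono => 2) := Primrec.const 2
  unfold dM
  refine Primrec.list_cons.comp
    ((mu.comp a i).pair ((mu.comp b i).pair (i.pair ((ad.comp j c2).pair k)))) ?_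
  refine Primrec.list_cons.comp
    ((mu.comp a i).pair ((mu.comp b i).pair (i.pair (j.pair (ad.comp k c2))))) ?_
  refine Primrec.list_cons.comp
    ((mu.comp b i).pair ((mu.comp a i).pair ((ad.comp i c1).pair ((ad.comp j c2).pair k)))) ?_
  refine Primrec.list_cons.comp
    ((mu.comp b i).pair ((mu.comp a i).pair ((ad.comp i c1).pair (j.pair (ad.comp k c2))))) ?_
  refine Primrec.list_cons.comp
    ((mu.comp b j).pair ((mu.comp a j).pair (i.pair ((ad.comp j c1).pair k)))) ?_
  refine Primrec.list_cons.comp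
    ((mu.comp a k).pair ((mu.comp b k).pair (i.pair (j.pair (ad.comp k c1))))) ?_
  exact Primrec.const []

theorem primrec_polyK : Primrec polyK := by
  unfold polyK
  exact Primrec.nat_iterate (α := ℕ) (f := fun k => k) (g := fun _ => [((1, 0, 1, 0, 0) : Mono)])
    (h := fun _ l => l.flatMap dM) Primrec.id (Primrec.const _)
    (Primrec.list_flatMap Primrec.snd (primrec_dM.comp Primrec.snd).to₂).to₂

theorem cr_evM {m : α → Mono} (hm : Computable m) {x : α → ℚ} (hx : CQ x) :
    CR (fun a => evM (m a) (x a)) := by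
  have a : Computable (fun m : Mono => m.1) := Computable.fst
  have b : Computable (fun m : Mono => m.2.1) := Computable.fst.comp Computable.snd
  have i : Computable (fun m : Mono => m.2.2.1) :=
    Computable.fst.comp (Computable.snd.comp Computable.snd)
  have j : Computable (fun m : Mono => m.2.2.2.1) :=
    Computable.fst.comp (Computable.snd.comp (Computable.snd.comp Computable.snd))
  have k : Computable (fun m : Mono => m.2.2.2.2) :=
    Computable.snd.comp (Computable.snd.comp (Computable.snd.comp Computable.snd))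
  have hA := hx.inv
  have hB := ((CQ.const 1).sub hx).inv
  have hP : CR (fun a => phic (x a)) := by
    refine ((CR.one.add (CR.exp (hA.sub hB))).inv (fun a => ?_)).of_eq (fun a => ?_)
    · linarith [Real.exp_pos (((x a)⁻¹ - (1 - x a)⁻¹ : ℚ) : ℝ)]
    · simp [phic]
  refine (((((CR.nat (a.comp hm)).sub (CR.nat (b.comp hm))).mul (hP.pow (i.comp hm))).mul
    (CR.ofCQ (hA.pow (j.comp hm)))).mul (CR.ofCQ (hB.pow (k.comp hm)))).of_eq (fun a => ?_)
  simp [evM]

theorem sum_map_eq_range {γ : Type} (l : List γ) (d : γ) (f : γ → ℝ) :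
    (l.map f).sum = ∑ i ∈ Finset.range l.length, f (l.getD i d) := by
  induction l with
  | nil => simp
  | cons a l ih =>
    rw [List.map_cons, List.sum_cons, ih, List.length_cons, Finset.sum_range_succ']
    simp [add_comm]

theorem cr_evP {l : α → List Mono} (hl : Computable l) {x : α → ℚ} (hx : CQ x) :
    CR (fun a => evP (l a) (x a)) := by
  have := CR.sum_range (k := fun a => (l a).length)
    (F := fun a i => evM ((l a).getD i (0, 0, 0, 0, 0)) (x a)) (Computable.list_length.comp hl)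
    (cr_evM ((Primrec.list_getD _).to_comp.comp (hl.comp Computable.fst) Computable.snd)
      (hx.comp Computable.fst))
  exact this.of_eq (fun a => (sum_map_eq_range (l a) _ (fun m => evM m (x a))).symm)

theorem Eff1.phi : Eff1 (fun (_ : α) => smoothTransition) := by
  refine ⟨fun _ => phi_contDiff, ?_⟩
  refine (CR.ite (Eff1.cx.le (CQ.const 0)) CR.zero (CR.ite ((CQ.const 1).le Eff1.cx)
    (CR.ite (ceq Eff1.ck (Computable.const 0)) CR.one CR.zero)
    (cr_evP (primrec_polyK.to_comp.comp Eff1.ck) Eff1.cx))).of_eq (fun p => ?_)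
  by_cases h1 : p.2.2.val ≤ 0
  · rw [if_pos h1, iteratedDeriv_phi_left _ (by exact_mod_cast h1)]
  · rw [if_neg h1]
    by_cases h2 : 1 ≤ p.2.2.val
    · rw [if_pos h2, iteratedDeriv_phi_right _ (by exact_mod_cast h2)]
    · rw [if_neg h2, iteratedDeriv_phi_mid _ ⟨by exact_mod_cast not_le.mp h1,
        by exact_mod_cast not_le.mp h2⟩]

end Vale.Agent.P113
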