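import Vale.Agent.P113.Eff1

/-! Effective smooth functions of time and space, and the compiler. -/

namespace Vale.Agent.P113

open Set

variable {α β : Type} [Primcodable α] [Primcodable β]

theorem Smooth.hasDerivAt_t {g : ℝ → Space → ℝ} (h : Smooth g) (t : ℝ) (x : Space) :
    HasDerivAt (fun s => g s x)
      (fderiv ℝ (fun z : ℝ × Space => g z.1 z.2) (t, x) (1, 0)) t := by
  have h1 : HasFDerivAt (fun z : ℝ × Space => g z.1 z.2)
      (fderiv ℝ (fun z : ℝ × Space => g z.1 z.2) (t, x)) (t, x) :=
    (h.differentiable (by simp) (t, x)).hasFDerivAt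
  have h2 : HasDerivAt (fun s : ℝ => ((s, x) : ℝ × Space)) (1, 0) t :=
    (hasDerivAt_id t).prodMk (hasDerivAt_const t x)
  exact h1.comp_hasDerivAt t h2

theorem Smooth.hasDerivAt_x {g : ℝ → Space → ℝ} (h : Smooth g) (j : Fin 3) (t : ℝ) (x : Space) :
    HasDerivAt (fun s => g t (Function.update x j s))
      (fderiv ℝ (fun z : ℝ × Space => g z.1 z.2) (t, x) (0, Pi.single j 1)) (x j) := by
  have h1 : HasFDerivAt (fun z : ℝ × Space => g z.1 z.2)
      (fderiv ℝ (fun z : ℝ × Space => g z.1 z.2) (t, x)) (t, Function.update x j (x j)) := by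
    rw [Function.update_eq_self]
    exact (h.differentiable (by simp) (t, x)).hasFDerivAt
  have h2 : HasDerivAt (fun s : ℝ => ((t, Function.update x j s) : ℝ × Space))
      (0, Pi.single j 1) (x j) :=
    (hasDerivAt_const (x j) t).prodMk (hasDerivAt_update x j (x j))
  exact h1.comp_hasDerivAt (x j) h2

theorem Smooth.hasDerivAt_dt {g : ℝ → Space → ℝ} (h : Smooth g) (t : ℝ) (x : Space) :
    HasDerivAt (fun s => g s x) (dt g t x) t := (h.hasDerivAt_t t x).differentiableAt.hasDerivAt

theorem Smooth.hasDerivAt_dx {g : ℝ → Space → ℝ} (h : Smooth g) (j : Fin 3) (t : ℝ) (x : Space) :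
    HasDerivAt (fun s => g t (Function.update x j s)) (dx j g t x) (x j) :=
  (h.hasDerivAt_x j t x).differentiableAt.hasDerivAt

theorem Smooth.fderiv_apply {g : ℝ → Space → ℝ} (h : Smooth g) (v : ℝ × Space) :
    ContDiff ℝ inf (fun z : ℝ × Space => fderiv ℝ (fun z : ℝ × Space => g z.1 z.2) z v) :=
  (ContDiff.fderiv_right (m := inf) h (by simp)).clm_apply contDiff_const

theorem Smooth.dt {g : ℝ → Space → ℝ} (h : Smooth g) : Smooth (dt g) := by
  have : (fun z : ℝ × Space => P113.dt g z.1 z.2)
      = fun z => fderiv ℝ (fun z : ℝ × Space => g z.1 z.2) z (1, 0) :=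
    funext (fun z => (h.hasDerivAt_t z.1 z.2).deriv)
  unfold Smooth
  rw [this]
  exact h.fderiv_apply _

theorem Smooth.dx {g : ℝ → Space → ℝ} (h : Smooth g) (j : Fin 3) : Smooth (dx j g) := by
  have : (fun z : ℝ × Space => P113.dx j g z.1 z.2)
      = fun z => fderiv ℝ (fun z : ℝ × Space => g z.1 z.2) z (0, Pi.single j 1) :=
    funext (fun z => (h.hasDerivAt_x j z.1 z.2).deriv)
  unfold Smooth
  rw [this]
  exact h.fderiv_apply _

theorem Smooth.mixed {g : ℝ → Space → ℝ} (h : Smooth g) (l : List (Option (Fin 3))) :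
    Smooth (mixed l g) := by
  induction l with
  | nil => exact h
  | cons o l ih =>
    cases o with
    | none => exact ih.dt
    | some j => exact ih.dx j

theorem mixed_add {g k : ℝ → Space → ℝ} (hg : Smooth g) (hk : Smooth k)
    (l : List (Option (Fin 3))) :
    mixed l (fun t x => g t x + k t x) = fun t x => mixed l g t x + mixed l k t x := by
  induction l with
  | nil => rfl
  | cons o l ih =>
    funext t x
    cases o with
    | none =>
      simp only [mixed, ih]
      exact (((hg.mixed l).hasDerivAt_dt t x).fun_add ((hk.mixed l).hasDerivAt_dt t x)).deriv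
    | some j =>
      simp only [mixed, ih]
      exact (((hg.mixed l).hasDerivAt_dx j t x).fun_add ((hk.mixed l).hasDerivAt_dx j t x)).deriv

theorem mixed_const_mul (c : ℝ) (g : ℝ → Space → ℝ) (l : List (Option (Fin 3))) :
    mixed l (fun t x => c * g t x) = fun t x => c * mixed l g t x := by
  induction l with
  | nil => rfl
  | cons o l ih =>
    funext t x
    cases o with
    | none => simp only [mixed, ih, dt, deriv_const_mul_field]
    | some j => simp only [mixed, ih, dx, deriv_const_mul_field]

theorem Smooth.sum {g : ℕ → ℝ → Space → ℝ} (h : ∀ i, Smooth (g i)) (n : ℕ) :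
    Smooth (fun t x => ∑ i ∈ Finset.range n, g i t x) :=
  ContDiff.sum (fun i _ => h i)

theorem mixed_sum {g : ℕ → ℝ → Space → ℝ} (h : ∀ i, Smooth (g i)) (n : ℕ)
    (l : List (Option (Fin 3))) :
    mixed l (fun t x => ∑ i ∈ Finset.range n, g i t x)
      = fun t x => ∑ i ∈ Finset.range n, mixed l (g i) t x := by
  induction n with
  | zero =>
    have := mixed_const_mul 0 (fun _ _ => 0) l
    simpa using this
  | succ n ih =>
    simp only [Finset.sum_range_succ]
    rw [mixed_add (Smooth.sum h n) (h n), ih]

theorem mixed_append (l m : List (Option (Fin 3))) (g : ℝ → Space → ℝ) :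
    mixed (l ++ m) g = mixed l (mixed m g) := by
  induction l with
  | nil => rfl
  | cons o l ih => cases o <;> simp only [List.cons_append, mixed, ih]

theorem mixed_tensor (A B C D : ℝ → ℝ) (l : List (Option (Fin 3))) :
    mixed l (fun t x => A t * B (x 0) * C (x 1) * D (x 2))
      = fun t x => iteratedDeriv (l.count none) A t * iteratedDeriv (l.count (some 0)) B (x 0)
        * iteratedDeriv (l.count (some 1)) C (x 1) * iteratedDeriv (l.count (some 2)) D (x 2) := by
  induction l with
  | nil => simp [mixed]
  | cons o l ih =>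
    funext t x
    cases o with
    | none =>
      simp [mixed, ih, dt, deriv_mul_const_field, iteratedDeriv_succ]
    | some j =>
      fin_cases j <;>
        simp [mixed, ih, dx, deriv_mul_const_field, deriv_const_mul_field, iteratedDeriv_succ]

/-- Queries for a scalar function: directions and a rational point. -/
abbrev Query : Type := List (Option (Fin 3)) × QName × QName × QName × QName

/-- A family of smooth functions of time and space with uniformly computable derivatives. -/
def Eff4 (F : α → ℝ → Space → ℝ) : Prop :=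
  (∀ a, Smooth (F a)) ∧ CR (fun p : α × Query => mixed p.2.1 (F p.1) (p.2.2.1.val : ℝ)
    ![(p.2.2.2.1.val : ℝ), (p.2.2.2.2.1.val : ℝ), (p.2.2.2.2.2.val : ℝ)])

theorem computable_count (o : Option (Fin 3)) :
    Computable (fun l : List (Option (Fin 3)) => l.count o) := by
  have := Primrec.list_length.comp (Primrec.listFilter (p := fun a : Option (Fin 3) => a = o)
    (Primrec.eq.comp Primrec.id (Primrec.const o)))
  refine (this.of_eq (fun l => ?_)).to_comp
  rw [List.count_eq_length_filter]
  congr 2
  funext x
  rw [Bool.eq_iff_iff]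
  simp

namespace Eff4

theorem of_eq {F G : α → ℝ → Space → ℝ} (h : Eff4 F) (e : ∀ a t x, F a t x = G a t x) :
    Eff4 G := by
  have : F = G := funext (fun a => funext (fun t => funext (e a t)))
  exact this ▸ h

theorem comp {F : β → ℝ → Space → ℝ} (h : Eff4 F) {f : α → β} (hf : Computable f) :
    Eff4 (fun a => F (f a)) :=
  ⟨fun _ => h.1 _, h.2.comp ((hf.comp Computable.fst).pair Computable.snd)⟩

theorem add {F G : α → ℝ → Space → ℝ} (hF : Eff4 F) (hG : Eff4 G) :
    Eff4 (fun a t x => F a t x + G a t x) :=
  ⟨fun a => ContDiff.add (hF.1 a) (hG.1 a),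
    (hF.2.add hG.2).of_eq (fun p => by rw [mixed_add (hF.1 _) (hG.1 _)])⟩

theorem const_mul {c : α → ℝ} (hc : CR c) {F : α → ℝ → Space → ℝ} (hF : Eff4 F) :
    Eff4 (fun a t x => c a * F a t x) :=
  ⟨fun a => ContDiff.mul contDiff_const (hF.1 a),
    ((hc.comp Computable.fst).mul hF.2).of_eq (fun p => by rw [mixed_const_mul])⟩

theorem sum_range {n : α → ℕ} (hn : Computable n) {F : α → ℕ → ℝ → Space → ℝ}
    (hF : Eff4 (fun p : α × ℕ => F p.1 p.2)) :
    Eff4 (fun a t x => ∑ i ∈ Finset.range (n a), F a i t x) := by
  refine ⟨fun a => Smooth.sum (fun i => hF.1 (a, i)) _, ?_⟩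
  have := CR.sum_range (α := α × Query) (k := fun p => n p.1)
    (F := fun p i => mixed p.2.1 (F p.1 i) (p.2.2.1.val : ℝ)
      ![(p.2.2.2.1.val : ℝ), (p.2.2.2.2.1.val : ℝ), (p.2.2.2.2.2.val : ℝ)])
    (hn.comp Computable.fst)
    (hF.2.comp (((Computable.fst.comp Computable.fst).pair Computable.snd).pair
      (Computable.snd.comp Computable.fst)))
  exact this.of_eq (fun p => by rw [mixed_sum (fun i => hF.1 (p.1, i))])

theorem mixed {F : α → ℝ → Space → ℝ} (hF : Eff4 F) (m : List (Option (Fin 3))) :
    Eff4 (fun a => mixed m (F a)) := by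
  refine ⟨fun a => (hF.1 a).mixed m, ?_⟩
  have := hF.2.comp (f := fun p : α × Query => (p.1, (p.2.1 ++ m, p.2.2)))
    (Computable.fst.pair ((Computable.list_append.comp (Computable.fst.comp Computable.snd)
      (Computable.const m)).pair (Computable.snd.comp Computable.snd)))
  exact this.of_eq (fun p => by simp only [mixed_append])

theorem dt {F : α → ℝ → Space → ℝ} (hF : Eff4 F) : Eff4 (fun a => dt (F a)) := hF.mixed [none]

theorem dx {F : α → ℝ → Space → ℝ} (hF : Eff4 F) (j : Fin 3) : Eff4 (fun a => dx j (F a)) :=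
  hF.mixed [some j]

theorem tensor {A B C D : α → ℝ → ℝ} (hA : Eff1 A) (hB : Eff1 B) (hC : Eff1 C) (hD : Eff1 D) :
    Eff4 (fun a t x => A a t * B a (x 0) * C a (x 1) * D a (x 2)) := by
  constructor
  · intro a
    have a1 := hA.1 a
    have a2 := hB.1 a
    have a3 := hC.1 a
    have a4 := hD.1 a
    unfold Smooth
    fun_prop
  · have cl : Computable (fun p : α × Query => p.2.1) := Computable.fst.comp Computable.snd
    have s2 : Computable (fun p : α × Query => p.2.2) := Computable.snd.comp Computable.snd
    have c0 : Computable (fun p : α × Query => p.2.2.1) := Computable.fst.comp s2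
    have c1 : Computable (fun p : α × Query => p.2.2.2.1) :=
      Computable.fst.comp (Computable.snd.comp s2)
    have c2 : Computable (fun p : α × Query => p.2.2.2.2.1) :=
      Computable.fst.comp (Computable.snd.comp (Computable.snd.comp s2))
    have c3 : Computable (fun p : α × Query => p.2.2.2.2.2) :=
      Computable.snd.comp (Computable.snd.comp (Computable.snd.comp s2))
    refine ((((hA.eval Computable.fst ((computable_count none).comp cl) (CQ.ofName c0)).mul
      (hB.eval Computable.fst ((computable_count (some 0)).comp cl) (CQ.ofName c1))).mul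
      (hC.eval Computable.fst ((computable_count (some 1)).comp cl) (CQ.ofName c2))).mul
      (hD.eval Computable.fst ((computable_count (some 2)).comp cl) (CQ.ofName c3))).of_eq
      (fun p => ?_)
    rw [mixed_tensor]
    rfl

end Eff4

theorem exists_curry {γ δ : Type} [Primcodable γ] [Primcodable δ] {G : α × γ → δ}
    (hG : Computable G) : ∃ compile : α → Nat.Partrec.Code, Computable compile ∧
      ∀ a q, Encodable.encode (G (a, q)) ∈ (compile a).eval (Encodable.encode q) := by
  obtain ⟨c, hc⟩ := Nat.Partrec.Code.exists_code.mp hG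
  refine ⟨fun a => Nat.Partrec.Code.curry c (Encodable.encode a),
    Nat.Partrec.Code.primrec₂_curry.to_comp.comp (Computable.const c) Computable.encode, ?_⟩
  intro a q
  rw [Nat.Partrec.Code.eval_curry, hc]
  have e : Nat.pair (Encodable.encode a) (Encodable.encode q) = Encodable.encode (a, q) := rfl
  rw [e]
  simp

/-- Full queries: component, directions, rational point and accuracy. -/
abbrev FQuery : Type := Fin 3 × List (Option (Fin 3)) × QName × QName × QName × QName × QName

theorem enc_FQuery (q : FQuery) : @Encodable.encode FQuery inferInstance q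
    = @Encodable.encode FQuery Primcodable.toEncodable q := rfl

theorem enc_QName (q : QName) : @Encodable.encode QName inferInstance q
    = @Encodable.encode QName Primcodable.toEncodable q := rfl

/-- From effectivity of the three components to a compiler. -/
theorem exists_compiler {f : α → ℝ → Space → Space} (h : ∀ i, Eff4 (fun a => comp (f a) i)) :
    ∃ compile : α → Nat.Partrec.Code, Computable compile ∧ ∀ a, Computes (compile a) (f a) := by
  let V : α × Fin 3 × Query → ℝ := fun p => mixed p.2.2.1 (comp (f p.1) p.2.1) (p.2.2.2.1.val : ℝ)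
    ![(p.2.2.2.2.1.val : ℝ), (p.2.2.2.2.2.1.val : ℝ), (p.2.2.2.2.2.2.val : ℝ)]
  have ci : Computable (fun p : α × Fin 3 × Query => p.2.1) := Computable.fst.comp Computable.snd
  have cq : Computable (fun p : α × Fin 3 × Query => (p.1, p.2.2)) :=
    Computable.fst.pair (Computable.snd.comp Computable.snd)
  have hV : CR V := by
    refine (CR.ite (ceq ci (Computable.const 0)) ((h 0).2.comp cq)
      (CR.ite (ceq ci (Computable.const 1)) ((h 1).2.comp cq) ((h 2).2.comp cq))).of_eq ?_
    rintro ⟨a, i, q⟩
    fin_cases i <;> simp [V]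
  obtain ⟨r, ⟨g, hg, hgr⟩, hr⟩ := hV
  let conv : α × FQuery → (α × Fin 3 × Query) × ℕ := fun p =>
    ((p.1, p.2.1, p.2.2.1, p.2.2.2.1, p.2.2.2.2.1, p.2.2.2.2.2.1, p.2.2.2.2.2.2.1),
      p.2.2.2.2.2.2.2.2.2)
  have s1 : Computable (fun p : α × FQuery => p.2) := Computable.snd
  have s2 : Computable (fun p : α × FQuery => p.2.2) := Computable.snd.comp s1
  have s3 : Computable (fun p : α × FQuery => p.2.2.2) := Computable.snd.comp s2
  have s4 : Computable (fun p : α × FQuery => p.2.2.2.2) := Computable.snd.comp s3
  have s5 : Computable (fun p : α × FQuery => p.2.2.2.2.2) := Computable.snd.comp s4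
  have s6 : Computable (fun p : α × FQuery => p.2.2.2.2.2.2) := Computable.snd.comp s5
  have s7 : Computable (fun p : α × FQuery => p.2.2.2.2.2.2.2) := Computable.snd.comp s6
  have hconv : Computable conv :=
    (Computable.fst.pair ((Computable.fst.comp s1).pair ((Computable.fst.comp s2).pair
      ((Computable.fst.comp s3).pair ((Computable.fst.comp s4).pair
        ((Computable.fst.comp s5).pair (Computable.fst.comp s6))))))).pair (q3.comp s7)
  have hG : Computable (fun p : α × FQuery => g (conv p)) := hg.comp hconv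
  obtain ⟨compile, hc, hev⟩ := exists_curry hG
  refine ⟨compile, hc, ?_⟩
  intro a i l t x y z ε hε
  refine ⟨g (conv (a, (i, l, t, x, y, z, ε))), ?_, ?_⟩
  · rw [enc_QName, enc_FQuery]
    exact hev a (i, l, t, x, y, z, ε)
  · rw [hgr]
    refine le_trans (hr _ _) ?_
    obtain ⟨e1, e2, e3⟩ := ε
    simp only [QName.val] at hε ⊢
    have h1 : e2 < e1 := by
      rw [lt_div_iff₀ (by positivity), zero_mul, sub_pos] at hε
      exact_mod_cast hε
    have h2 : (e2 : ℝ) + 1 ≤ e1 := by exact_mod_cast h1
    push_cast
    gcongr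
    linarith

end Vale.Agent.P113
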