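import Vale.Agent.P113.Traj

/-! The velocity field made of a loading pulse and four periodic shear pulses. -/

namespace Vale.Agent.P113

open Set Real

/-- The force that makes `u` a solution with zero pressure when the advection term vanishes. -/
noncomputable def force (ν : ℝ) (u : ℝ → Space → Space) : ℝ → Space → Space :=
  fun t x i => dt (comp u i) t x + (-ν) * (dx 0 (dx 0 (comp u i)) t x + dx 1 (dx 1 (comp u i)) t x
    + dx 2 (dx 2 (comp u i)) t x)

theorem Smooth.contOn {g : ℝ → Space → ℝ} (h : Smooth g) (T : ℝ) : ContOn T g :=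
  h.continuous.continuousOn

theorem Smooth.diffX {g : ℝ → Space → ℝ} (h : Smooth g) (T : ℝ) (j : Fin 3) : DiffX T j g :=
  fun t _ x => (h.hasDerivAt_dx j t x).differentiableAt

theorem Smooth.dtOn_eq {g : ℝ → Space → ℝ} (h : Smooth g) {T : ℝ} (hT : 0 < T) {t : ℝ}
    (ht : t ∈ Icc 0 T) (x : Space) : dtOn T g t x = P113.dt g t x :=
  (h.hasDerivAt_dt t x).hasDerivWithinAt.derivWithin (uniqueDiffOn_Icc hT t ht)

theorem isClassical_force (ν : ℝ) {T : ℝ} (hT : 0 < T) {u : ℝ → Space → Space}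
    (hs : ∀ i, Smooth (comp u i)) (hp : ∀ t i, Periodic3 (comp u i t)) (h0 : ∀ x, u 0 x = 0)
    (hdiv : ∀ t x, ∑ j, dx j (comp u j) t x = 0)
    (hadv : ∀ t, 0 ≤ t → ∀ x i, ∑ j, comp u j t x * dx j (comp u i) t x = 0) :
    IsClassical ν (force ν u) T u (fun _ _ => 0) where
  periodic_u := fun t _ i => hp t i
  periodic_p := fun _ _ _ _ => rfl
  diff_t := fun t _ x i => ((hs i).hasDerivAt_dt t x).differentiableAt.differentiableWithinAt
  diff_x := fun i j => (hs i).diffX T j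
  diff_xx := fun i j k => ((hs i).dx j).diffX T k
  diff_p := fun _ _ _ _ => differentiableAt_const _
  cont_u := fun i => (hs i).contOn T
  cont_t := fun i => ContinuousOn.congr ((hs i).dt.contOn T)
    (fun z hz => (hs i).dtOn_eq hT hz.1 z.2)
  cont_x := fun i j => ((hs i).dx j).contOn T
  cont_xx := fun i j k => (((hs i).dx j).dx k).contOn T
  cont_p := continuousOn_const
  cont_px := fun j => by
    unfold ContOn dx
    simp only [deriv_const]
    exact continuousOn_const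
  momentum := fun t ht x i => by
    rw [(hs i).dtOn_eq hT ht, hadv t ht.1 x i]
    simp only [comp, force, Fin.sum_univ_three]
    simp only [dx, deriv_const]
    ring
  incompressible := fun t _ x => hdiv t x
  initial := h0
  mean_zero := fun _ _ => by simp

/-- Periodic time pulse number `k`, of period 16, active on `[k, k+1]`. -/
noncomputable def tb (k : ℕ) : ℝ → ℝ :=
  fun t => perio (fun s => deriv smoothTransition (16 * s - k)) (1 / 16 * t)

theorem tb_supp {k : ℕ} (h4 : k ≤ 4) (s : ℝ) (hs : 3 / 8 ≤ |s|) :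
    deriv smoothTransition (16 * s - k) = 0 := by
  have : (k : ℝ) ≤ 4 := by exact_mod_cast h4
  have h0 : (0 : ℝ) ≤ k := Nat.cast_nonneg k
  rcases le_abs.mp hs with h | h
  · exact dphi_right (by linarith)
  · exact dphi_left (by linarith)

theorem tb_add (k : ℕ) (t : ℝ) : tb k (t + 16) = tb k t := by
  unfold tb
  rw [← perio_add_one _ (1 / 16 * t)]
  congr 1
  ring

theorem tb_slot {k : ℕ} (h4 : k ≤ 4) (n : ℕ) {t : ℝ} (ht : t ∈ Icc (n : ℝ) (n + 1)) :
    tb k t = if n % 16 = k then deriv smoothTransition (t - n) else 0 := by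
  set m : ℕ := (n + 6) / 16 with hm
  have a1 : 16 * m ≤ n + 6 := by omega
  have a2 : n + 1 ≤ 16 * m + 10 := by omega
  have b1 : 16 * (m : ℝ) ≤ n + 6 := by exact_mod_cast a1
  have b2 : (n : ℝ) + 1 ≤ 16 * m + 10 := by exact_mod_cast a2
  unfold tb
  rw [perio_eq (tb_supp h4) _ (m : ℤ) (by
    rw [abs_le]; push_cast; constructor <;> linarith [ht.1, ht.2])]
  push_cast
  split_ifs with h
  · have : n = 16 * m + k := by omega
    have e : (n : ℝ) = 16 * m + k := by exact_mod_cast this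
    congr 1
    rw [e]; ring
  · rcases lt_or_gt_of_ne (show n ≠ 16 * m + k by omega) with h' | h'
    · have : (n : ℝ) + 1 ≤ 16 * m + k := by exact_mod_cast h'
      exact dphi_left (by linarith [ht.2])
    · have : 16 * (m : ℝ) + k + 1 ≤ n := by exact_mod_cast h'
      exact dphi_right (by linarith [ht.1])

theorem eff1_tb {α : Type} [Primcodable α] {k : ℕ} (h4 : k ≤ 4) : Eff1 (fun _ : α => tb k) := by
  have h1 : Eff1 (fun (_ : α) (s : ℝ) => deriv smoothTransition (16 * s - k)) :=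
    (Eff1.phi.deriv.affine (CQ.const 16) (CQ.const (-(k : ℚ)))).of_eq (fun _ s => by
      congr 1; push_cast; ring)
  exact ((h1.perio (fun _ => tb_supp h4)).affine (CQ.const (1 / 16)) (CQ.const 0)).of_eq
    (fun _ s => by simp [tb])

/-- The velocity field. -/
noncomputable def vel (X0 Y0 : ℝ) (g1 g2 g3 g4 : ℝ → ℝ → ℝ) : ℝ → Space → Space :=
  fun t x => ![deriv smoothTransition t * X0 + tb 2 t * g2 (x 1) (x 2),
    deriv smoothTransition t * Y0 + tb 3 t * g3 (x 0) (x 2),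
    tb 1 t * g1 (x 0) (x 1) + tb 4 t * g4 (x 0) (x 1)]

/-- The spatial profile of the velocity field in time slot `n`. -/
noncomputable def slotW (X0 Y0 : ℝ) (g1 g2 g3 g4 : ℝ → ℝ → ℝ) (n : ℕ) : Space → Space :=
  if n = 0 then fun _ => ![X0, Y0, 0]
  else if n % 16 = 1 then fun x => ![0, 0, g1 (x 0) (x 1)]
  else if n % 16 = 2 then fun x => ![g2 (x 1) (x 2), 0, 0]
  else if n % 16 = 3 then fun x => ![0, g3 (x 0) (x 2), 0]
  else if n % 16 = 4 then fun x => ![0, 0, g4 (x 0) (x 1)]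
  else fun _ => 0

variable {X0 Y0 : ℝ} {g1 g2 g3 g4 : ℝ → ℝ → ℝ}

theorem slotW_shear (n : ℕ) : Shear (slotW X0 Y0 g1 g2 g3 g4 n) := by
  unfold slotW
  split_ifs
  · exact fun _ _ _ => rfl
  · intro x y h
    simp only [h 0 (fun _ => rfl), h 1 (fun _ => rfl)]
  · intro x y h
    simp only [h 1 (fun _ => rfl), h 2 (fun _ => rfl)]
  · intro x y h
    simp only [h 0 (fun _ => rfl), h 2 (fun _ => rfl)]
  · intro x y h
    simp only [h 0 (fun _ => rfl), h 1 (fun _ => rfl)]
  · exact fun _ _ _ => rfl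

theorem vel_slot (n : ℕ) (t : ℝ) (ht : t ∈ Icc (n : ℝ) (n + 1)) (x : Space) :
    vel X0 Y0 g1 g2 g3 g4 t x = deriv smoothTransition (t - n) • slotW X0 Y0 g1 g2 g3 g4 n x := by
  have e1 := tb_slot (k := 1) (by norm_num) n ht
  have e2 := tb_slot (k := 2) (by norm_num) n ht
  have e3 := tb_slot (k := 3) (by norm_num) n ht
  have e4 := tb_slot (k := 4) (by norm_num) n ht
  unfold vel slotW
  rw [e1, e2, e3, e4]
  by_cases h0 : n = 0
  · subst h0
    funext i
    fin_cases i <;> simp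
  · have h1 : (1 : ℝ) ≤ n := by exact_mod_cast Nat.one_le_iff_ne_zero.mpr h0
    rw [dphi_right (le_trans h1 ht.1), if_neg h0]
    funext i
    split_ifs <;> first | omega | (fin_cases i <;> simp)

theorem vel_zero (x : Space) : vel X0 Y0 g1 g2 g3 g4 0 x = 0 := by
  rw [vel_slot 0 0 (by simp), dphi_left (by simp), zero_smul]

theorem vel_div (t : ℝ) (x : Space) :
    ∑ j, dx j (comp (vel X0 Y0 g1 g2 g3 g4) j) t x = 0 := by
  simp [Fin.sum_univ_three, dx, comp, vel]

theorem vel_adv (t : ℝ) (ht : 0 ≤ t) (x : Space) (i : Fin 3) :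
    ∑ j, comp (vel X0 Y0 g1 g2 g3 g4) j t x * dx j (comp (vel X0 Y0 g1 g2 g3 g4) i) t x = 0 := by
  have h := vel_slot (X0 := X0) (Y0 := Y0) (g1 := g1) (g2 := g2) (g3 := g3) (g4 := g4) ⌊t⌋₊ t
    ⟨Nat.floor_le ht, (Nat.lt_floor_add_one t).le⟩
  simp only [dx, comp, h, slotW]
  split_ifs <;> fin_cases i <;> simp [Fin.sum_univ_three]

theorem vel_periodic (p1 : ∀ a b, g1 (a + 1) b = g1 a b ∧ g1 a (b + 1) = g1 a b)
    (p2 : ∀ a b, g2 (a + 1) b = g2 a b ∧ g2 a (b + 1) = g2 a b)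
    (p3 : ∀ a b, g3 (a + 1) b = g3 a b ∧ g3 a (b + 1) = g3 a b)
    (p4 : ∀ a b, g4 (a + 1) b = g4 a b ∧ g4 a (b + 1) = g4 a b) (t : ℝ) (i : Fin 3) :
    Periodic3 (comp (vel X0 Y0 g1 g2 g3 g4) i t) := by
  intro x j
  fin_cases i <;> fin_cases j <;> simp [comp, vel, p1, p2, p3, p4]

theorem vel_late {t : ℝ} (ht : 1 ≤ t) (x : Space) :
    vel X0 Y0 g1 g2 g3 g4 t x = vel 0 0 g1 g2 g3 g4 t x := by
  simp [vel, dphi_right ht]

theorem vel_add (t : ℝ) (x : Space) :
    vel 0 0 g1 g2 g3 g4 (t + 16) x = vel 0 0 g1 g2 g3 g4 t x := by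
  simp [vel, tb_add]

theorem force_congr (ν : ℝ) {u v : ℝ → Space → Space} {t c : ℝ}
    (h : ∀ᶠ s in nhds t, ∀ x, u (s + c) x = v s x) (x : Space) :
    force ν u (t + c) x = force ν v t x := by
  have h1 : ∀ i, comp u i (t + c) = comp v i t := fun i =>
    funext (fun y => congrFun (h.self_of_nhds y) i)
  have h2 : ∀ i j, dx j (comp u i) (t + c) = dx j (comp v i) t := by
    intro i j; funext y; simp only [dx, h1]
  have h3 : ∀ i j, dx j (dx j (comp u i)) (t + c) x = dx j (dx j (comp v i)) t x := by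
    intro i j
    change deriv (fun s => dx j (comp u i) (t + c) (Function.update x j s)) (x j)
      = deriv (fun s => dx j (comp v i) t (Function.update x j s)) (x j)
    rw [h2]
  have h4 : ∀ i, dt (comp u i) (t + c) x = dt (comp v i) t x := by
    intro i
    unfold dt
    rw [← deriv_comp_add_const (fun s => comp u i s x) c t]
    refine Filter.EventuallyEq.deriv_eq ?_
    filter_upwards [h] with s hs
    exact congrFun (hs x) i
  funext i
  simp only [force, h3, h4]

theorem force_late (ν : ℝ) {t : ℝ} (ht : 2 ≤ t) (x : Space) :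
    force ν (vel X0 Y0 g1 g2 g3 g4) t x = force ν (vel 0 0 g1 g2 g3 g4) t x := by
  have := force_congr ν (u := vel X0 Y0 g1 g2 g3 g4) (v := vel 0 0 g1 g2 g3 g4) (t := t) (c := 0)
    (by
      filter_upwards [Ioi_mem_nhds (show 1 < t by linarith)] with s hs
      intro y
      rw [add_zero]
      exact vel_late (le_of_lt hs) y) x
  rwa [add_zero] at this

theorem force_add (ν : ℝ) {t : ℝ} (ht : 2 ≤ t) (x : Space) :
    force ν (vel X0 Y0 g1 g2 g3 g4) (t + 16) x = force ν (vel X0 Y0 g1 g2 g3 g4) t x := by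
  rw [force_late ν ht, force_late ν (by linarith)]
  exact force_congr ν (Filter.Eventually.of_forall (fun s y => vel_add s y)) x

section Eff

variable {α : Type} [Primcodable α]

theorem eff4_force {ν : ℝ} (hν : ComputableReal ν) {u : α → ℝ → Space → Space}
    (h : ∀ i, Eff4 (fun a => comp (u a) i)) (i : Fin 3) :
    Eff4 (fun a => comp (force ν (u a)) i) :=
  (h i).dt.add (Eff4.const_mul (CR.ofReal hν).neg
    (((((h i).dx 0).dx 0).add (((h i).dx 1).dx 1)).add (((h i).dx 2).dx 2)))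

/-- A family of functions of two variables that is a finite sum of effective products. -/
def Eff2 (g : α → ℝ → ℝ → ℝ) : Prop :=
  ∃ (n : α → ℕ) (A B C D : α × ℕ → ℝ → ℝ), Computable n ∧ Eff1 A ∧ Eff1 B ∧ Eff1 C ∧ Eff1 D ∧
    ∀ a r s, g a r s = ∑ j ∈ Finset.range (n a), (A (a, j) r * B (a, j) s + C (a, j) r * D (a, j) s)

theorem Eff2.comp {β : Type} [Primcodable β] {g : β → ℝ → ℝ → ℝ} (h : Eff2 g) {f : α → β}
    (hf : Computable f) : Eff2 (fun a => g (f a)) := by
  obtain ⟨n, A, B, C, D, hn, hA, hB, hC, hD, h⟩ := h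
  have hk : Computable (fun p : α × ℕ => (f p.1, p.2)) :=
    (hf.comp Computable.fst).pair Computable.snd
  exact ⟨fun a => n (f a), _, _, _, _, hn.comp hf, hA.comp hk, hB.comp hk, hC.comp hk, hD.comp hk,
    fun a r s => h _ r s⟩

theorem Eff2.e12 {g : α → ℝ → ℝ → ℝ} (h : Eff2 g) {τ : α → ℝ → ℝ} (hτ : Eff1 τ) :
    Eff4 (fun a t x => τ a t * g a (x 1) (x 2)) := by
  obtain ⟨n, A, B, C, D, hn, hA, hB, hC, hD, h⟩ := h
  have one : Eff1 (fun (_ : α × ℕ) (_ : ℝ) => (1 : ℝ)) := Eff1.const CR.one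
  have ht := hτ.comp (Computable.fst : Computable (fun p : α × ℕ => p.1))
  refine (Eff4.sum_range hn (F := fun a j t x => τ a t * 1 * A (a, j) (x 1) * B (a, j) (x 2)
    + τ a t * 1 * C (a, j) (x 1) * D (a, j) (x 2))
    ((Eff4.tensor ht one hA hB).add (Eff4.tensor ht one hC hD))).of_eq (fun a t x => ?_)
  rw [h, Finset.mul_sum]
  exact Finset.sum_congr rfl (fun j _ => by ring)

theorem Eff2.e02 {g : α → ℝ → ℝ → ℝ} (h : Eff2 g) {τ : α → ℝ → ℝ} (hτ : Eff1 τ) :
    Eff4 (fun a t x => τ a t * g a (x 0) (x 2)) := by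
  obtain ⟨n, A, B, C, D, hn, hA, hB, hC, hD, h⟩ := h
  have one : Eff1 (fun (_ : α × ℕ) (_ : ℝ) => (1 : ℝ)) := Eff1.const CR.one
  have ht := hτ.comp (Computable.fst : Computable (fun p : α × ℕ => p.1))
  refine (Eff4.sum_range hn (F := fun a j t x => τ a t * A (a, j) (x 0) * 1 * B (a, j) (x 2)
    + τ a t * C (a, j) (x 0) * 1 * D (a, j) (x 2))
    ((Eff4.tensor ht hA one hB).add (Eff4.tensor ht hC one hD))).of_eq (fun a t x => ?_)
  rw [h, Finset.mul_sum]
  exact Finset.sum_congr rfl (fun j _ => by ring)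

theorem Eff2.e01 {g : α → ℝ → ℝ → ℝ} (h : Eff2 g) {τ : α → ℝ → ℝ} (hτ : Eff1 τ) :
    Eff4 (fun a t x => τ a t * g a (x 0) (x 1)) := by
  obtain ⟨n, A, B, C, D, hn, hA, hB, hC, hD, h⟩ := h
  have one : Eff1 (fun (_ : α × ℕ) (_ : ℝ) => (1 : ℝ)) := Eff1.const CR.one
  have ht := hτ.comp (Computable.fst : Computable (fun p : α × ℕ => p.1))
  refine (Eff4.sum_range hn (F := fun a j t x => τ a t * A (a, j) (x 0) * B (a, j) (x 1) * 1
    + τ a t * C (a, j) (x 0) * D (a, j) (x 1) * 1)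
    ((Eff4.tensor ht hA hB one).add (Eff4.tensor ht hC hD one))).of_eq (fun a t x => ?_)
  rw [h, Finset.mul_sum]
  exact Finset.sum_congr rfl (fun j _ => by ring)

theorem eff4_vel {X Y : α → ℝ} (hX : CR X) (hY : CR Y) {G1 G2 G3 G4 : α → ℝ → ℝ → ℝ}
    (h1 : Eff2 G1) (h2 : Eff2 G2) (h3 : Eff2 G3) (h4 : Eff2 G4) (i : Fin 3) :
    Eff4 (fun a => comp (vel (X a) (Y a) (G1 a) (G2 a) (G3 a) (G4 a)) i) := by
  have one : Eff1 (fun (_ : α) (_ : ℝ) => (1 : ℝ)) := Eff1.const CR.one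
  have hl := Eff4.tensor (Eff1.phi (α := α)).deriv one one one
  fin_cases i
  · exact ((hl.const_mul hX).add (h2.e12 (eff1_tb (k := 2) (by norm_num)))).of_eq
      (fun a t x => by simp [comp, vel, mul_comm])
  · exact ((hl.const_mul hY).add (h3.e02 (eff1_tb (k := 3) (by norm_num)))).of_eq
      (fun a t x => by simp [comp, vel, mul_comm])
  · exact ((h1.e01 (eff1_tb (k := 1) (by norm_num))).add
      (h4.e01 (eff1_tb (k := 4) (by norm_num)))).of_eq (fun a t x => by simp [comp, vel])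

end Eff

end Vale.Agent.P113
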