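import Vale.Agent.P113.Stack

/-! The four shear profiles of a machine and their action on encoded configurations. -/

namespace Vale.Agent.P113

open Set Real

/-- Base of the encoding. -/
def bb (M : Machine) : ℕ := 4 * nN M

/-- Inverse height of a slab. -/
def zz (M : Machine) : ℚ := 8 * ((nJ M : ℚ) + 1)

/-- Slope of the affine map of a rule that replaces `u` by `v`. -/
def slope (M : Machine) (u v : List ℕ) : ℚ := selK (bb M) u / selK (bb M) v

/-- Offset of the affine map of a rule that replaces `u` by `v`. -/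
def off (M : Machine) (u v : List ℕ) : ℚ := encQ (bb M) v - slope M u v * encQ (bb M) u

/-- Extra lift for halting states. -/
def lift (M : Machine) (j : ℕ) : ℚ := if M.2[j / nN M / 2]? = some none then 1 / 2 else 0

/-- First shear: lift each rule box to its own slab. -/
noncomputable def G1 (M : Machine) : ℝ → ℝ → ℝ :=
  gsum (nJ M) (fun j => selK (bb M) (dU M j)) (fun j => selM (bb M) (dU M j))
    (fun j => selK (bb M) (dV M j)) (fun j => selM (bb M) (dV M j))
    (fun j => (j : ℚ) / zz M + lift M j) (fun _ => 1 / (2 * zz M)) (fun _ => 1 / (2 * zz M))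

/-- Second shear: update the first stack. -/
noncomputable def G2 (M : Machine) : ℝ → ℝ → ℝ :=
  gsum (nJ M) (fun _ => 0) (fun _ => 0) (fun _ => zz M) (fun j => -(j : ℚ))
    (fun j => off M (dU M j) (iU M j) - 2 * j * (slope M (dU M j) (iU M j) - 1))
    (fun j => -(slope M (dU M j) (iU M j) - 1))
    (fun j => 2 * zz M * (slope M (dU M j) (iU M j) - 1))

/-- Third shear: update the second stack. -/
noncomputable def G3 (M : Machine) : ℝ → ℝ → ℝ :=
  gsum (nJ M) (fun _ => 0) (fun _ => 0) (fun _ => zz M) (fun j => -(j : ℚ))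
    (fun j => off M (dV M j) (iV M j) + (slope M (dV M j) (iV M j) - 1) *
      (off M (dU M j) (iU M j) / slope M (dU M j) (iU M j) - 2 * j))
    (fun j => -(slope M (dV M j) (iV M j) - 1) / slope M (dU M j) (iU M j))
    (fun j => 2 * zz M * (slope M (dV M j) (iV M j) - 1))

/-- Fourth shear: return to the base plane. -/
noncomputable def G4 (M : Machine) : ℝ → ℝ → ℝ :=
  gsum (nJ M) (fun j => selK (bb M) (iU M j)) (fun j => selM (bb M) (iU M j))
    (fun j => selK (bb M) (iV M j)) (fun j => selM (bb M) (iV M j))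
    (fun j => (off M (dU M j) (iU M j) / slope M (dU M j) (iU M j)
      + off M (dV M j) (iV M j) / slope M (dV M j) (iV M j)) / (2 * zz M) - (j : ℚ) / zz M)
    (fun j => -1 / (2 * zz M * slope M (dU M j) (iU M j)))
    (fun j => -1 / (2 * zz M * slope M (dV M j) (iV M j)))

/-- Real position of a stack. -/
noncomputable def pos (M : Machine) (l : List ℕ) : ℝ := (encQ (bb M) l : ℝ)

/-- Height of a configuration after the first shear. -/
noncomputable def hgt (M : Machine) (C : List ℕ × List ℕ) : ℝ :=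
  ((idx M C : ℝ) + (pos M C.1 + pos M C.2) / 2) / (zz M : ℝ)

variable {M : Machine}

theorem bb_pos (M : Machine) : 0 < bb M := by have := nN_pos M; unfold bb; omega

theorem zz_pos (M : Machine) : (0 : ℝ) < (zz M : ℝ) := by unfold zz; push_cast; positivity

theorem slope_pos (M : Machine) (u v : List ℕ) : (0 : ℝ) < (slope M u v : ℝ) := by
  have : (0 : ℝ) < (bb M : ℝ) := by exact_mod_cast bb_pos M
  unfold slope selK; push_cast; positivity

theorem pos_mem {l : List ℕ} (h : ∀ s ∈ l, s < nN M) : pos M l ∈ Icc (0 : ℝ) (1 / 4) :=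
  encQ_mem (nN_pos M) h

theorem pos_replace {u v l : List ℕ} (h : Pre u l) :
    pos M (v ++ l.drop u.length) = (slope M u v : ℝ) * pos M l + (off M u v : ℝ) := by
  have : encQ (bb M) (v ++ l.drop u.length) = slope M u v * encQ (bb M) l + off M u v := by
    rw [encQ_append _ (bb_pos M), encQ_pre _ (bb_pos M) h]
    have : (bb M : ℚ) ≠ 0 := by have := bb_pos M; positivity
    unfold off slope selK
    field_simp
    ring
  unfold pos
  exact_mod_cast this

theorem hgt_mem {C : List ℕ × List ℕ} (h : Valid M C) : hgt M C ∈ Icc (0 : ℝ) (1 / 8) := by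
  have a := pos_mem h.1
  have b := pos_mem h.2.1
  have c : (idx M C : ℝ) + 1 ≤ nJ M := by exact_mod_cast h.idx_lt
  have z := zz_pos M
  unfold hgt
  constructor
  · have := a.1
    have := b.1
    positivity
  · rw [div_le_iff₀ z]
    unfold zz
    push_cast
    linarith [a.2, b.2]

theorem slab_one {C : List ℕ × List ℕ} (h : Valid M C) :
    plat ((zz M : ℝ) * hgt M C + ((-(idx M C : ℚ) : ℚ) : ℝ)) = 1 := by
  have a := pos_mem h.1
  have b := pos_mem h.2.1
  have z := zz_pos M
  apply plat_one
  unfold hgt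
  rw [mul_div_cancel₀ _ z.ne']
  push_cast
  constructor <;> linarith [a.1, a.2, b.1, b.2]

theorem slab_zero {C : List ℕ × List ℕ} (h : Valid M C) {j : ℕ} (hj : j ≠ idx M C) :
    plat ((zz M : ℝ) * hgt M C + ((-(j : ℚ) : ℚ) : ℝ)) = 0 := by
  have a := pos_mem h.1
  have b := pos_mem h.2.1
  have z := zz_pos M
  apply plat_zero
  unfold hgt
  rw [mul_div_cancel₀ _ z.ne', le_abs]
  push_cast
  rcases lt_or_gt_of_ne hj with h' | h'
  · have : (j : ℝ) + 1 ≤ idx M C := by exact_mod_cast h'
    left; linarith [a.1, b.1]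
  · have : (idx M C : ℝ) + 1 ≤ j := by exact_mod_cast h'
    right; linarith [a.2, b.2]

theorem plat_triv (r : ℝ) : plat (((0 : ℚ) : ℝ) * r + ((0 : ℚ) : ℝ)) = 1 :=
  plat_one (by simp)

theorem G1_eq (hM : WellFormed M) {C : List ℕ × List ℕ} (h : Valid M C) :
    G1 M (pos M C.1) (pos M C.2) = hgt M C + (lift M (idx M C) : ℝ) := by
  unfold G1
  rw [gsum_eq (pos_mem h.1) (pos_mem h.2.1) h.idx_lt]
  · have z := zz_pos M
    unfold hgt
    push_cast
    field_simp
    ring
  · unfold pos bb
    rw [sel_one (nN_pos M) h.1 h.pre_dom.1, sel_one (nN_pos M) h.2.1 h.pre_dom.2, one_mul]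
  · intro j hj hne
    unfold pos bb
    by_cases h1 : Pre (dU M j) C.1
    · rw [sel_zero (nN_pos M) (dV_lt j) h.2.1 (fun h2 => hne (eq_idx_of_pre h1 h2)), mul_zero]
    · rw [sel_zero (nN_pos M) (dU_lt hM hj) h.1 h1, zero_mul]

theorem next_fst {C : List ℕ × List ℕ} (h : Valid M C) : pos M (next M C).1 =
    (slope M (dU M (idx M C)) (iU M (idx M C)) : ℝ) * pos M C.1
      + (off M (dU M (idx M C)) (iU M (idx M C)) : ℝ) := pos_replace h.pre_dom.1

theorem next_snd {C : List ℕ × List ℕ} (h : Valid M C) : pos M (next M C).2 =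
    (slope M (dV M (idx M C)) (iV M (idx M C)) : ℝ) * pos M C.2
      + (off M (dV M (idx M C)) (iV M (idx M C)) : ℝ) := pos_replace h.pre_dom.2

theorem hgt_mem' {C : List ℕ × List ℕ} (h : Valid M C) : hgt M C ∈ Icc (0 : ℝ) (1 / 4) :=
  ⟨(hgt_mem h).1, by linarith [(hgt_mem h).2]⟩

theorem G2_eq {C : List ℕ × List ℕ} (h : Valid M C) :
    G2 M (pos M C.2) (hgt M C) = pos M (next M C).1 - pos M C.1 := by
  unfold G2
  rw [gsum_eq (pos_mem h.2.1) (hgt_mem' h) h.idx_lt]
  · have z := zz_pos M
    rw [next_fst h]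
    unfold hgt
    push_cast
    field_simp
    ring
  · rw [plat_triv, slab_one h, one_mul]
  · intro j _ hne
    rw [slab_zero h hne, mul_zero]

theorem G3_eq (hM : WellFormed M) {C : List ℕ × List ℕ} (h : Valid M C) :
    G3 M (pos M (next M C).1) (hgt M C) = pos M (next M C).2 - pos M C.2 := by
  unfold G3
  rw [gsum_eq (pos_mem (h.next hM).1) (hgt_mem' h) h.idx_lt]
  · have z := zz_pos M
    have s := slope_pos M (dU M (idx M C)) (iU M (idx M C))
    rw [next_fst h, next_snd h]
    unfold hgt
    push_cast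
    field_simp
    ring
  · rw [plat_triv, slab_one h, one_mul]
  · intro j _ hne
    rw [slab_zero h hne, mul_zero]

theorem G4_eq (hM : WellFormed M) {C : List ℕ × List ℕ} (h : Valid M C) :
    G4 M (pos M (next M C).1) (pos M (next M C).2) = - hgt M C := by
  have h' := h.next hM
  unfold G4
  rw [gsum_eq (pos_mem h'.1) (pos_mem h'.2.1) h.idx_lt]
  · have z := zz_pos M
    have s := slope_pos M (dU M (idx M C)) (iU M (idx M C))
    have s' := slope_pos M (dV M (idx M C)) (iV M (idx M C))
    rw [next_fst h, next_snd h]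
    unfold hgt
    push_cast
    field_simp
    ring
  · unfold pos bb
    rw [sel_one (nN_pos M) h'.1 (pre_append _ _), sel_one (nN_pos M) h'.2.1 (pre_append _ _),
      one_mul]
  · intro j hj hne
    unfold pos bb
    by_cases h1 : Pre (iU M j) (next M C).1
    · rw [sel_zero (nN_pos M) (iV_lt hM hj) h'.2.1 (fun h2 => hne (eq_idx_of_pre_next h1 h2)),
        mul_zero]
    · rw [sel_zero (nN_pos M) (iU_lt hM hj).1 h'.1 h1, zero_mul]

/-- The slot profiles of a machine and an input. -/
noncomputable def WW (M : Machine) (w : List ℕ) : ℕ → Space → Space :=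
  slotW (pos M [1]) (pos M w) (G1 M) (G2 M) (G3 M) (G4 M)

theorem lift_halt {C : List ℕ × List ℕ} (h : Valid M C) (hh : HaltC M C) :
    lift M (idx M C) = 1 / 2 := by
  unfold lift; rw [h.idx_div]; exact if_pos hh

theorem lift_not {C : List ℕ × List ℕ} (h : Valid M C) (hh : ¬ HaltC M C) :
    lift M (idx M C) = 0 := by
  unfold lift; rw [h.idx_div]; exact if_neg hh

theorem pts_lift (hM : WellFormed M) {w : List ℕ} {C : List ℕ × List ℕ} (h : Valid M C) {m : ℕ}
    (hp : pts (WW M w) 0 (16 * m + 1) = ![pos M C.1, pos M C.2, 0]) :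
    pts (WW M w) 0 (16 * m + 2) = ![pos M C.1, pos M C.2, hgt M C + (lift M (idx M C) : ℝ)] := by
  rw [pts, hp, WW, slotW, if_neg (by omega), if_pos (by omega)]
  funext i
  fin_cases i <;> simp [G1_eq hM h]

theorem pts_period (hM : WellFormed M) {w : List ℕ} {C : List ℕ × List ℕ} (h : Valid M C)
    (hh : ¬ HaltC M C) {m : ℕ}
    (hp : pts (WW M w) 0 (16 * m + 1) = ![pos M C.1, pos M C.2, 0]) :
    (∀ k, k < 16 → pts (WW M w) 0 (16 * m + 1 + k) 2 ∈ Icc (0 : ℝ) (1 / 8)) ∧
      pts (WW M w) 0 (16 * (m + 1) + 1) = ![pos M (next M C).1, pos M (next M C).2, 0] := by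
  have p2 := pts_lift hM h hp
  rw [lift_not h hh, Rat.cast_zero, add_zero] at p2
  have p3 : pts (WW M w) 0 (16 * m + 3) = ![pos M (next M C).1, pos M C.2, hgt M C] := by
    rw [pts, p2, WW, slotW, if_neg (by omega), if_neg (by omega), if_pos (by omega)]
    funext i
    fin_cases i <;> simp [G2_eq h]
  have p4 : pts (WW M w) 0 (16 * m + 4) = ![pos M (next M C).1, pos M (next M C).2, hgt M C] := by
    rw [pts, p3, WW, slotW, if_neg (by omega), if_neg (by omega), if_neg (by omega),
      if_pos (by omega)]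
    funext i
    fin_cases i <;> simp [G3_eq hM h]
  have p5 : ∀ k, k ≤ 12 →
      pts (WW M w) 0 (16 * m + 5 + k) = ![pos M (next M C).1, pos M (next M C).2, 0] := by
    intro k hk
    induction k with
    | zero =>
      rw [add_zero, pts, p4, WW, slotW, if_neg (by omega), if_neg (by omega), if_neg (by omega),
        if_neg (by omega), if_pos (by omega)]
      funext i
      fin_cases i <;> simp [G4_eq hM h]
    | succ k ih =>
      rw [← add_assoc, pts, ih (by omega), WW, slotW, if_neg (by omega), if_neg (by omega),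
        if_neg (by omega), if_neg (by omega), if_neg (by omega), add_zero]
  refine ⟨fun k hk => ?_, ?_⟩
  · have hz := hgt_mem h
    rcases (show k = 0 ∨ k = 1 ∨ k = 2 ∨ k = 3 ∨ 4 ≤ k by omega) with e | e | e | e | e
    · rw [e, add_zero, hp]; simp
    · rw [e, p2]; exact hz
    · rw [e, p3]; exact hz
    · rw [e, p4]; exact hz
    · rw [show 16 * m + 1 + k = 16 * m + 5 + (k - 4) by omega, p5 _ (by omega)]; simp
  · rw [show 16 * (m + 1) + 1 = 16 * m + 5 + 12 by ring]
    exact p5 12 le_rfl

theorem pts_run (hM : WellFormed M) {w : List ℕ} (hw : IsInput M w) (m : ℕ)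
    (hh : ∀ k, k < m → ¬ HaltC M (run M w k)) :
    pts (WW M w) 0 (16 * m + 1) = ![pos M (run M w m).1, pos M (run M w m).2, 0] := by
  induction m with
  | zero => simp [pts, WW, slotW, run]
  | succ m ih =>
    rw [run_succ]
    exact (pts_period hM (valid_run hM hw m) (hh m (Nat.lt_succ_self m))
      (ih (fun k hk => hh k (by omega)))).2

/-- The detection region. -/
def region : Set Torus := {p | p 2 ∈ (fun r : ℝ => (r : AddCircle (1 : ℝ))) '' Ioo (3 / 8) (3 / 4)}

theorem isOpen_region : IsOpen region := by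
  have h : IsOpen ((fun r : ℝ => (r : AddCircle (1 : ℝ))) '' Ioo (3 / 8) (3 / 4)) :=
    QuotientAddGroup.isOpenMap_coe _ isOpen_Ioo
  exact h.preimage (continuous_apply (2 : Fin 3) : Continuous (fun p : Torus => p 2))

/-- The velocity field of a machine and an input. -/
noncomputable def uu (M : Machine) (w : List ℕ) : ℝ → Space → Space :=
  vel (pos M [1]) (pos M w) (G1 M) (G2 M) (G3 M) (G4 M)

theorem detect (hM : WellFormed M) {w : List ℕ} (hw : IsInput M w) {X : ℝ → Space}
    (hX : IsTrajectory (uu M w) 0 X) : (∃ t, 0 ≤ t ∧ proj (X t) ∈ region) ↔ Halts M w := by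
  have hT := traj_eq (W := WW M w) slotW_shear vel_slot hX
  rw [halts_iff hM hw]
  constructor
  · rintro ⟨t, ht, r, hr, hrt⟩
    by_contra hcon
    have hn : ∀ k, ¬ HaltC M (run M w k) := fun k h => hcon ⟨k, h⟩
    have hz : ∀ n, pts (WW M w) 0 n 2 ∈ Icc (0 : ℝ) (1 / 8) := by
      intro n
      rcases Nat.eq_zero_or_pos n with h | h
      · rw [h]; simp [pts]
      · have := (pts_period hM (valid_run hM hw ((n - 1) / 16)) (hn _)
          (pts_run hM hw _ (fun k _ => hn k))).1 ((n - 1) % 16) (Nat.mod_lt _ (by norm_num))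
        rwa [show 16 * ((n - 1) / 16) + 1 + (n - 1) % 16 = n by omega] at this
    have h1 := hT ⌊t⌋₊ t ⟨Nat.floor_le ht, (Nat.lt_floor_add_one t).le⟩
    have a := hz ⌊t⌋₊
    have b := hz (⌊t⌋₊ + 1)
    rw [pts] at b
    have c1 := smoothTransition.nonneg (t - ⌊t⌋₊)
    have c2 := smoothTransition.le_one (t - ⌊t⌋₊)
    have h2 : X t 2 ∈ Icc (0 : ℝ) (1 / 8) := by
      rw [h1]
      simp only [Pi.add_apply, Pi.smul_apply, smul_eq_mul] at b ⊢
      constructor <;> nlinarith [a.1, a.2, b.1, b.2]
    have h3 : r = X t 2 := by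
      refine (AddCircle.coe_eq_coe_iff_of_mem_Ico (p := 1) (a := 0) ?_ ?_).mp hrt
      · constructor <;> linarith [hr.1, hr.2]
      · constructor <;> linarith [h2.1, h2.2]
    linarith [hr.1, h2.2]
  · intro hex
    classical
    set m := Nat.find hex with hm
    have h1 : HaltC M (run M w m) := Nat.find_spec hex
    have hv := valid_run hM hw m
    have h2 := pts_lift hM hv (pts_run hM hw m (fun k hk => Nat.find_min hex hk))
    rw [lift_halt hv h1] at h2
    have h3 := hT (16 * m + 2) ((16 * m + 2 : ℕ) : ℝ) ⟨le_rfl, by linarith⟩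
    rw [sub_self, smoothTransition.zero, zero_smul, add_zero, h2] at h3
    refine ⟨_, Nat.cast_nonneg (16 * m + 2), hgt M (run M w m) + 1 / 2, ?_, ?_⟩
    · have := hgt_mem hv
      constructor <;> linarith [this.1, this.2]
    · rw [h3]
      simp [proj]

end Vale.Agent.P113
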