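import Vale.Agent.P113.Defs

/-! Integration by parts on the torus and parametric integrals. -/

namespace Vale.Agent.P113

open Set MeasureTheory

theorem integral_partial_eq_zero (j : Fin 3) (g g' : Space → ℝ)
    (hper : ∀ x : Space, g (Function.update x j (x j + 1)) = g x)
    (hd : ∀ x : Space, HasDerivAt (fun s => g (Function.update x j s)) (g' x) (x j))
    (hc : Continuous g') : ∫ x in Icc (0 : Space) 1, g' x = 0 := by
  let e := MeasurableEquiv.piFinSuccAbove (fun _ : Fin 3 => ℝ) j
  have hmp : MeasurePreserving e.symm := (volume_preserving_piFinSuccAbove (fun _ : Fin 3 => ℝ) j).symm e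
  have he : ∀ z : ℝ × (Fin 2 → ℝ), e.symm z = Fin.insertNth j z.1 z.2 := fun z => rfl
  have hpre : e.symm ⁻¹' (Icc (0 : Space) 1) = Icc (0 : ℝ) 1 ×ˢ Icc (0 : Fin 2 → ℝ) 1 := by
    ext z
    simp only [mem_preimage, he, mem_Icc, mem_prod, Fin.le_insertNth_iff, Fin.insertNth_le_iff]
    simp only [Pi.zero_apply, Pi.one_apply]
    constructor
    · rintro ⟨⟨h1, h2⟩, h3, h4⟩
      exact ⟨⟨h1, h3⟩, h2, h4⟩
    · rintro ⟨⟨h1, h3⟩, h2, h4⟩
      exact ⟨⟨h1, h2⟩, h3, h4⟩
  rw [← hmp.setIntegral_preimage_emb e.symm.measurableEmbedding, hpre]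
  have hcont : Continuous (fun z : ℝ × (Fin 2 → ℝ) => g' (e.symm z)) := by
    simp only [he]
    exact hc.comp (by fun_prop)
  have hint : IntegrableOn (fun z : ℝ × (Fin 2 → ℝ) => g' (e.symm z))
      (Icc (0 : ℝ) 1 ×ˢ Icc (0 : Fin 2 → ℝ) 1) volume :=
    hcont.continuousOn.integrableOn_compact (isCompact_Icc.prod isCompact_Icc)
  rw [IntegrableOn, Measure.volume_eq_prod, ← Measure.prod_restrict] at hint
  rw [Measure.volume_eq_prod, ← Measure.prod_restrict, integral_prod_symm _ hint]
  have hinner : ∀ y : Fin 2 → ℝ, ∫ s in Icc (0 : ℝ) 1, g' (e.symm (s, y)) = 0 := by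
    intro y
    set x0 : Space := Fin.insertNth j 0 y with hx0
    have hupd : ∀ s : ℝ, (Fin.insertNth j s y : Space) = Function.update x0 j s := by
      intro s
      rw [hx0, Fin.update_insertNth]
    have hder : ∀ s ∈ uIcc (0 : ℝ) 1, HasDerivAt (fun s => g (Function.update x0 j s))
        (g' (Function.update x0 j s)) s := by
      intro s _
      have := hd (Function.update x0 j s)
      simpa using this
    have hci : Continuous (fun s : ℝ => g' (Function.update x0 j s)) := hc.comp (by fun_prop)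
    have h1 := intervalIntegral.integral_eq_sub_of_hasDerivAt hder (hci.intervalIntegrable _ _)
    rw [intervalIntegral.integral_of_le zero_le_one, ← integral_Icc_eq_integral_Ioc] at h1
    simp only [he, hupd]
    rw [h1]
    have h2 := hper (Function.update x0 j 0)
    simp only [Function.update_self, zero_add, Function.update_idem] at h2
    rw [h2, sub_self]
  simp only [hinner, integral_zero]

theorem ContOn.slice {T : ℝ} {g : ℝ → Space → ℝ} (h : ContOn T g) {t : ℝ} (ht : t ∈ Icc 0 T) :
    Continuous (g t) := by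
  have : Continuous (fun x : Space => ((t, x) : ℝ × Space)) := by fun_prop
  exact ContinuousOn.comp_continuous (g := fun z : ℝ × Space => g z.1 z.2) h this
    (fun x => ⟨ht, mem_univ _⟩)

theorem ContOn.time {T : ℝ} {g : ℝ → Space → ℝ} (h : ContOn T g) (x : Space) :
    ContinuousOn (fun t => g t x) (Icc 0 T) := by
  have : Continuous (fun t : ℝ => ((t, x) : ℝ × Space)) := by fun_prop
  exact ContinuousOn.comp h this.continuousOn (fun t ht => ⟨ht, mem_univ _⟩)

theorem ContOn.bound {T : ℝ} {g : ℝ → Space → ℝ} (h : ContOn T g) :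
    ∃ C : ℝ, 0 ≤ C ∧ ∀ t ∈ Icc 0 T, ∀ x ∈ Icc (0 : Space) 1, |g t x| ≤ C := by
  have hK : IsCompact (Icc (0 : ℝ) T ×ˢ Icc (0 : Space) 1) := isCompact_Icc.prod isCompact_Icc
  obtain ⟨C, hC⟩ := hK.exists_bound_of_continuousOn
    (h.mono (prod_mono subset_rfl (subset_univ _)))
  refine ⟨max C 0, le_max_right _ _, fun t ht x hx => ?_⟩
  exact le_trans (hC (t, x) ⟨ht, hx⟩) (le_max_left _ _)

theorem volume_cube : volume (Icc (0 : Space) 1) = 1 := by
  rw [Real.volume_Icc_pi]
  simp

theorem ContOn.integral_cont {T : ℝ} {g : ℝ → Space → ℝ} (h : ContOn T g) :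
    ContinuousOn (fun t => ∫ x in Icc (0 : Space) 1, g t x) (Icc 0 T) := by
  obtain ⟨C, -, hC⟩ := h.bound
  refine continuousOn_of_dominated (bound := fun _ => C) ?_ ?_ ?_ ?_
  · intro t ht
    exact (h.slice ht).aestronglyMeasurable
  · intro t ht
    filter_upwards [ae_restrict_mem measurableSet_Icc] with x hx
    exact hC t ht x hx
  · exact integrableOn_const (by rw [volume_cube]; simp)
  · exact Filter.Eventually.of_forall (fun x => h.time x)

theorem hasDerivAt_integral_cube {T : ℝ} {g g' : ℝ → Space → ℝ} (h : ContOn T g)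
    (h' : ContOn T g') (hd : ∀ t ∈ Ioo 0 T, ∀ x, HasDerivAt (fun s => g s x) (g' t x) t)
    {t : ℝ} (ht : t ∈ Ioo 0 T) :
    HasDerivAt (fun s => ∫ x in Icc (0 : Space) 1, g s x) (∫ x in Icc (0 : Space) 1, g' t x) t := by
  obtain ⟨C, -, hC⟩ := h'.bound
  have hs : Ioo 0 T ∈ nhds t := Ioo_mem_nhds ht.1 ht.2
  refine (hasDerivAt_integral_of_dominated_loc_of_deriv_le (μ := volume.restrict (Icc (0 : Space) 1))
    (F := g) (F' := g') (bound := fun _ => C) hs ?_ ?_ ?_ ?_ ?_ ?_).2
  · filter_upwards [hs] with s hs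
    exact (h.slice (Ioo_subset_Icc_self hs)).aestronglyMeasurable
  · exact (h.slice (Ioo_subset_Icc_self ht)).continuousOn.integrableOn_compact isCompact_Icc
  · exact (h'.slice (Ioo_subset_Icc_self ht)).aestronglyMeasurable
  · filter_upwards [ae_restrict_mem measurableSet_Icc] with x hx
    intro s hs
    exact hC s (Ioo_subset_Icc_self hs) x hx
  · exact integrableOn_const (by rw [volume_cube]; simp)
  · exact Filter.Eventually.of_forall (fun x s hs => hd s hs x)

theorem Periodic3.int_shift {g : Space → ℝ} (h : Periodic3 g) (j : Fin 3) (x : Space) (n : ℤ) :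
    g (Function.update x j (x j + n)) = g x := by
  have hp : Function.Periodic (fun s => g (Function.update x j s)) 1 := by
    intro s
    have := h (Function.update x j s) j
    simpa using this
  have := hp.int_mul n (x j)
  simpa using this

theorem Periodic3.fract {g : Space → ℝ} (h : Periodic3 g) (x : Space) :
    g (fun i => Int.fract (x i)) = g x := by
  have h0 := h.int_shift 0 x (-⌊x 0⌋)
  have h1 := h.int_shift 1 (Function.update x 0 (x 0 + ((-⌊x 0⌋ : ℤ) : ℝ))) (-⌊x 1⌋)
  have h2 := h.int_shift 2 (Function.update (Function.update x 0 (x 0 + ((-⌊x 0⌋ : ℤ) : ℝ))) 1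
    ((Function.update x 0 (x 0 + ((-⌊x 0⌋ : ℤ) : ℝ))) 1 + ((-⌊x 1⌋ : ℤ) : ℝ))) (-⌊x 2⌋)
  rw [← h0, ← h1, ← h2]
  congr 1
  funext i
  fin_cases i <;> simp [Int.fract, sub_eq_add_neg]

theorem eq_zero_of_integral_cube {g : Space → ℝ} (hc : Continuous g) (hnn : ∀ x, 0 ≤ g x)
    (hper : Periodic3 g) (h0 : ∫ x in Icc (0 : Space) 1, g x = 0) (x : Space) : g x = 0 := by
  have hint : IntegrableOn g (Icc (0 : Space) 1) := hc.continuousOn.integrableOn_compact isCompact_Icc
  have h1 := (setIntegral_eq_zero_iff_of_nonneg_ae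
    (Filter.Eventually.of_forall (fun x => hnn x)) hint).mp h0
  have h2 : EqOn g 0 (Icc (0 : Space) 1) := by
    refine Measure.eqOn_of_ae_eq h1 hc.continuousOn continuousOn_const ?_
    have hconv : Convex ℝ (Icc (0 : Space) 1) := convex_Icc _ _
    have hne : (interior (Icc (0 : Space) 1)).Nonempty := by
      refine ⟨fun _ => 1 / 2, ?_⟩
      rw [mem_interior_iff_mem_nhds]
      exact pi_Icc_mem_nhds (fun i => by norm_num) (fun i => by norm_num)
    rw [hconv.closure_interior_eq_closure_of_nonempty_interior hne]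
    exact subset_closure
  rw [← hper.fract x]
  exact h2 ⟨fun i => Int.fract_nonneg _, fun i => (Int.fract_lt_one _).le⟩

end Vale.Agent.P113
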