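import Vale.Agent.P113.Ibp

/-! Uniqueness of classical solutions by the energy method. -/

namespace Vale.Agent.P113

open Set MeasureTheory

theorem energy_algebra (ν C P Q : ℝ) (hν : 0 ≤ ν) (U V Ut Vt Px Qx F : Fin 3 → ℝ)
    (Ux Vx Uxx Vxx : Fin 3 → Fin 3 → ℝ)
    (hU : ∀ i, Ut i + ∑ j, U j * Ux i j = - Px i + ν * ∑ j, Uxx i j + F i)
    (hV : ∀ i, Vt i + ∑ j, V j * Vx i j = - Qx i + ν * ∑ j, Vxx i j + F i)
    (dU : ∑ j, Ux j j = 0) (dV : ∑ j, Vx j j = 0) (hC : ∀ i j, |Ux i j| ≤ C) :
    ∑ i, 2 * (V i - U i) * (Vt i - Ut i) ≤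
      ∑ j, (-(Vx j j * ∑ i, (V i - U i) ^ 2 + V j * ∑ i, 2 * (V i - U i) * (Vx i j - Ux i j))
        - 2 * ((Qx j - Px j) * (V j - U j) + (Q - P) * (Vx j j - Ux j j))
        + 2 * ν * ∑ i, ((Vx i j - Ux i j) * (Vx i j - Ux i j) + (V i - U i) * (Vxx i j - Uxx i j)))
      + 6 * C * ∑ i, (V i - U i) ^ 2 := by
  have key : ∑ i, 2 * (V i - U i) * (Vt i - Ut i) =
      ∑ j, (-(Vx j j * ∑ i, (V i - U i) ^ 2 + V j * ∑ i, 2 * (V i - U i) * (Vx i j - Ux i j))
        - 2 * ((Qx j - Px j) * (V j - U j) + (Q - P) * (Vx j j - Ux j j))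
        + 2 * ν * ∑ i, ((Vx i j - Ux i j) * (Vx i j - Ux i j) + (V i - U i) * (Vxx i j - Uxx i j)))
      - 2 * ∑ i, ∑ j, (V i - U i) * (V j - U j) * Ux i j
      - 2 * ν * ∑ i, ∑ j, (Vx i j - Ux i j) ^ 2 := by
    have a0 := hU 0
    have a1 := hU 1
    have a2 := hU 2
    have b0 := hV 0
    have b1 := hV 1
    have b2 := hV 2
    simp only [Fin.sum_univ_three] at *
    linear_combination 2 * (V 0 - U 0) * (b0 - a0) + 2 * (V 1 - U 1) * (b1 - a1)
      + 2 * (V 2 - U 2) * (b2 - a2)
      + ((V 0 - U 0) ^ 2 + (V 1 - U 1) ^ 2 + (V 2 - U 2) ^ 2 + 2 * (Q - P)) * dV - 2 * (Q - P) * dU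
  have h1 : ∀ i j, -(2 * ((V i - U i) * (V j - U j) * Ux i j))
      ≤ C * ((V i - U i) ^ 2 + (V j - U j) ^ 2) := by
    intro i j
    have h := abs_le.mp (hC i j)
    have e1 := mul_nonneg (sub_nonneg.mpr h.2) (sq_nonneg ((V i - U i) - (V j - U j)))
    have e2 := mul_nonneg (by linarith [h.1] : 0 ≤ C + Ux i j) (sq_nonneg ((V i - U i) + (V j - U j)))
    nlinarith
  have h2 : 0 ≤ 2 * ν * ∑ i, ∑ j, (Vx i j - Ux i j) ^ 2 := by positivity
  have h3 : -(2 * ∑ i, ∑ j, (V i - U i) * (V j - U j) * Ux i j) ≤ 6 * C * ∑ i, (V i - U i) ^ 2 := by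
    have c00 := h1 0 0
    have c01 := h1 0 1
    have c02 := h1 0 2
    have c10 := h1 1 0
    have c11 := h1 1 1
    have c12 := h1 1 2
    have c20 := h1 2 0
    have c21 := h1 2 1
    have c22 := h1 2 2
    simp only [Fin.sum_univ_three]
    linarith
  rw [key]
  linarith

theorem DiffX.hasDerivAt {T : ℝ} {j : Fin 3} {g : ℝ → Space → ℝ} (h : DiffX T j g) {t : ℝ}
    (ht : t ∈ Icc 0 T) (x : Space) :
    HasDerivAt (fun s => g t (Function.update x j s)) (dx j g t x) (x j) :=
  (h t ht x).hasDerivAt

theorem periodic_dx {g : ℝ → Space → ℝ} {t : ℝ} (h : Periodic3 (g t)) (k : Fin 3) :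
    Periodic3 (dx k g t) := by
  intro x j
  unfold dx
  by_cases hjk : j = k
  · subst hjk
    simp only [Function.update_self, Function.update_idem]
    have : (fun s => g t (Function.update x j s)) = fun s => g t (Function.update x j (s + 1)) := by
      funext s
      have := h (Function.update x j s) j
      simpa using this.symm
    rw [← deriv_comp_add_const (fun s => g t (Function.update x j s)) 1 (x j), ← this]
  · have hkj : k ≠ j := fun h => hjk h.symm
    rw [Function.update_of_ne hkj]
    congr 1
    funext s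
    have := h (Function.update x k s) j
    rw [Function.update_of_ne hjk] at this
    rw [Function.update_comm hjk, this]

theorem velocity_unique {ν T : ℝ} (hν : 0 ≤ ν) (hT : 0 < T) {f u v : ℝ → Space → Space}
    {p q : ℝ → Space → ℝ} (hu : IsClassical ν f T u p) (hv : IsClassical ν f T v q) :
    ∀ t ∈ Icc 0 T, ∀ x, v t x = u t x := by
  set g : ℝ → Space → ℝ := fun t x => ∑ i, (comp v i t x - comp u i t x) ^ 2 with hg
  set g' : ℝ → Space → ℝ := fun t x => ∑ i, 2 * (comp v i t x - comp u i t x) *
    (dtOn T (comp v i) t x - dtOn T (comp u i) t x) with hg'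
  have hgc : ContOn T g := by
    have a := hu.cont_u
    have b := hv.cont_u
    unfold ContOn at *
    simp only [hg]
    exact continuousOn_finsetSum _ (fun i _ => ((b i).sub (a i)).pow 2)
  have hgc' : ContOn T g' := by
    have a := hu.cont_u
    have b := hv.cont_u
    have c := hu.cont_t
    have d := hv.cont_t
    unfold ContOn at *
    simp only [hg']
    exact continuousOn_finsetSum _ (fun i _ =>
      (continuousOn_const.mul ((b i).sub (a i))).mul ((d i).sub (c i)))
  have hgd : ∀ t ∈ Ioo 0 T, ∀ x, HasDerivAt (fun s => g s x) (g' t x) t := by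
    intro t ht x
    have hn : Icc 0 T ∈ nhds t := Icc_mem_nhds ht.1 ht.2
    have a : ∀ i, HasDerivAt (fun s => comp u i s x) (dtOn T (comp u i) t x) t := fun i =>
      (hu.diff_t t (Ioo_subset_Icc_self ht) x i).hasDerivWithinAt.hasDerivAt hn
    have b : ∀ i, HasDerivAt (fun s => comp v i s x) (dtOn T (comp v i) t x) t := fun i =>
      (hv.diff_t t (Ioo_subset_Icc_self ht) x i).hasDerivWithinAt.hasDerivAt hn
    simp only [hg, hg']
    refine HasDerivAt.fun_sum (fun i _ => ?_)
    exact (((b i).fun_sub (a i)).fun_pow 2).congr_deriv (by simp)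
  obtain ⟨C, hC0, hC⟩ : ∃ C : ℝ, 0 ≤ C ∧ ∀ i j, ∀ t ∈ Icc 0 T, ∀ x ∈ Icc (0 : Space) 1,
      |dx j (comp u i) t x| ≤ C := by
    choose C hC0 hC using fun i j => (hu.cont_x i j).bound
    refine ⟨∑ i, ∑ j, C i j, Finset.sum_nonneg (fun i _ => Finset.sum_nonneg (fun j _ => hC0 i j)),
      fun i j t ht x hx => le_trans (hC i j t ht x hx) ?_⟩
    refine le_trans (Finset.single_le_sum (fun j _ => hC0 i j) (Finset.mem_univ j)) ?_
    exact Finset.single_le_sum (f := fun i => ∑ j, C i j)
      (fun i _ => Finset.sum_nonneg (fun j _ => hC0 i j)) (Finset.mem_univ i)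
  set E : ℝ → ℝ := fun t => ∫ x in Icc (0 : Space) 1, g t x with hE
  have hEc : ContinuousOn E (Icc 0 T) := hgc.integral_cont
  have hEd : ∀ t ∈ Ioo 0 T, HasDerivAt E (∫ x in Icc (0 : Space) 1, g' t x) t :=
    fun t ht => hasDerivAt_integral_cube hgc hgc' hgd ht
  have hEle : ∀ t ∈ Icc 0 T, ∫ x in Icc (0 : Space) 1, g' t x ≤ 6 * C * E t := by
    intro t ht
    set G : Fin 3 → Space → ℝ := fun j x =>
      -(comp v j t x * ∑ i, (comp v i t x - comp u i t x) ^ 2)
        - 2 * ((q t x - p t x) * (comp v j t x - comp u j t x))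
        + 2 * ν * ∑ i, (comp v i t x - comp u i t x) *
          (dx j (comp v i) t x - dx j (comp u i) t x) with hG
    set G' : Fin 3 → Space → ℝ := fun j x =>
      -(dx j (comp v j) t x * ∑ i, (comp v i t x - comp u i t x) ^ 2
          + comp v j t x * ∑ i, 2 * (comp v i t x - comp u i t x) *
            (dx j (comp v i) t x - dx j (comp u i) t x))
        - 2 * ((dx j q t x - dx j p t x) * (comp v j t x - comp u j t x)
          + (q t x - p t x) * (dx j (comp v j) t x - dx j (comp u j) t x))
        + 2 * ν * ∑ i, ((dx j (comp v i) t x - dx j (comp u i) t x) *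
            (dx j (comp v i) t x - dx j (comp u i) t x)
          + (comp v i t x - comp u i t x) *
            (dx j (dx j (comp v i)) t x - dx j (dx j (comp u i)) t x)) with hG'
    have cu := fun i => (hu.cont_u i).slice ht
    have cv := fun i => (hv.cont_u i).slice ht
    have cux := fun i j => (hu.cont_x i j).slice ht
    have cvx := fun i j => (hv.cont_x i j).slice ht
    have cuxx := fun i j k => (hu.cont_xx i j k).slice ht
    have cvxx := fun i j k => (hv.cont_xx i j k).slice ht
    have cp := hu.cont_p.slice ht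
    have cq := hv.cont_p.slice ht
    have cpx := fun j => (hu.cont_px j).slice ht
    have cqx := fun j => (hv.cont_px j).slice ht
    have hG'c : ∀ j, Continuous (G' j) := by
      intro j
      simp only [hG']
      fun_prop
    have hzero : ∀ j, ∫ x in Icc (0 : Space) 1, G' j x = 0 := by
      intro j
      refine integral_partial_eq_zero j (G j) (G' j) ?_ ?_ (hG'c j)
      · intro x
        have pu := fun i => hu.periodic_u t ht i x j
        have pv := fun i => hv.periodic_u t ht i x j
        have pux := fun i k => periodic_dx (hu.periodic_u t ht i) k x j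
        have pvx := fun i k => periodic_dx (hv.periodic_u t ht i) k x j
        have pp := hu.periodic_p t ht x j
        have pq := hv.periodic_p t ht x j
        simp only [hG, pu, pv, pux, pvx, pp, pq]
      · intro x
        have du := fun i => (hu.diff_x i j).hasDerivAt ht x
        have dv := fun i => (hv.diff_x i j).hasDerivAt ht x
        have dux := fun i => (hu.diff_xx i j j).hasDerivAt ht x
        have dvx := fun i => (hv.diff_xx i j j).hasDerivAt ht x
        have dp := (hu.diff_p j).hasDerivAt ht x
        have dq := (hv.diff_p j).hasDerivAt ht x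
        have s1 := HasDerivAt.fun_sum (u := Finset.univ)
          (fun i _ => ((dv i).fun_sub (du i)).fun_pow 2)
        have s2 := HasDerivAt.fun_sum (u := Finset.univ)
          (fun i _ => ((dv i).fun_sub (du i)).fun_mul ((dvx i).fun_sub (dux i)))
        have s3 := ((((dv j).fun_mul s1).fun_neg).fun_sub
          (((dq.fun_sub dp).fun_mul ((dv j).fun_sub (du j))).const_mul 2)).fun_add
          (s2.const_mul (2 * ν))
        simp only [hG, hG']
        exact s3.congr_deriv (by simp)
    have hpt : ∀ x ∈ Icc (0 : Space) 1, g' t x ≤ ∑ j, G' j x + 6 * C * g t x := by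
      intro x hx
      exact energy_algebra ν C (p t x) (q t x) hν (fun i => comp u i t x) (fun i => comp v i t x)
        (fun i => dtOn T (comp u i) t x) (fun i => dtOn T (comp v i) t x)
        (fun i => dx i p t x) (fun i => dx i q t x) (fun i => comp f i t x)
        (fun i j => dx j (comp u i) t x) (fun i j => dx j (comp v i) t x)
        (fun i j => dx j (dx j (comp u i)) t x) (fun i j => dx j (dx j (comp v i)) t x)
        (hu.momentum t ht x) (hv.momentum t ht x) (hu.incompressible t ht x)
        (hv.incompressible t ht x) (fun i j => hC i j t ht x hx)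
    have i1 : ∀ j, IntegrableOn (G' j) (Icc (0 : Space) 1) := fun j =>
      (hG'c j).continuousOn.integrableOn_compact isCompact_Icc
    have i2 : IntegrableOn (g t) (Icc (0 : Space) 1) :=
      (hgc.slice ht).continuousOn.integrableOn_compact isCompact_Icc
    have i3 : IntegrableOn (g' t) (Icc (0 : Space) 1) :=
      (hgc'.slice ht).continuousOn.integrableOn_compact isCompact_Icc
    have i4 : IntegrableOn (fun x => ∑ j, G' j x) (Icc (0 : Space) 1) :=
      integrable_finsetSum _ (fun j _ => i1 j)
    calc ∫ x in Icc (0 : Space) 1, g' t x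
        ≤ ∫ x in Icc (0 : Space) 1, (∑ j, G' j x + 6 * C * g t x) :=
          setIntegral_mono_on i3 (i4.add (i2.const_mul _)) measurableSet_Icc hpt
      _ = 6 * C * E t := by
          rw [integral_add i4 (i2.const_mul _), integral_finsetSum _ (fun j _ => i1 j),
            integral_const_mul]
          simp [hzero, hE]
  have hE0 : E 0 = 0 := by
    simp [hE, hg, comp, hu.initial, hv.initial]
  have hanti : AntitoneOn (fun t => Real.exp (-(6 * C) * t) * E t) (Icc 0 T) := by
    have hd : ∀ t ∈ Ioo 0 T, HasDerivAt (fun t => Real.exp (-(6 * C) * t) * E t)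
        (Real.exp (-(6 * C) * t) * (-(6 * C)) * E t
          + Real.exp (-(6 * C) * t) * ∫ x in Icc (0 : Space) 1, g' t x) t := by
      intro t ht
      have h1 : HasDerivAt (fun t : ℝ => -(6 * C) * t) (-(6 * C)) t := by
        simpa using (hasDerivAt_id t).const_mul (-(6 * C))
      exact h1.exp.mul (hEd t ht)
    refine antitoneOn_of_deriv_nonpos (convex_Icc 0 T) ?_ ?_ ?_
    · exact (Continuous.continuousOn (by fun_prop)).mul hEc
    · rw [interior_Icc]
      exact fun t ht => (hd t ht).differentiableAt.differentiableWithinAt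
    · rw [interior_Icc]
      intro t ht
      rw [(hd t ht).deriv]
      have h1 := hEle t (Ioo_subset_Icc_self ht)
      have h2 := Real.exp_pos (-(6 * C) * t)
      nlinarith
  intro t ht x
  have hgnn : ∀ x, 0 ≤ g t x := fun x => Finset.sum_nonneg (fun i _ => sq_nonneg _)
  have hEt : E t = 0 := by
    have h1 := hanti ⟨le_rfl, hT.le⟩ ht ht.1
    simp only [hE0, mul_zero] at h1
    have h2 := Real.exp_pos (-(6 * C) * t)
    have h3 : 0 ≤ E t := setIntegral_nonneg measurableSet_Icc (fun x _ => hgnn x)
    nlinarith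
  have hper : Periodic3 (g t) := by
    intro x j
    have pu := fun i => hu.periodic_u t ht i x j
    have pv := fun i => hv.periodic_u t ht i x j
    simp only [hg, pu, pv]
  have h0 := eq_zero_of_integral_cube (hgc.slice ht) hgnn hper hEt x
  funext i
  have h1 := (Finset.sum_eq_zero_iff_of_nonneg (fun i _ => sq_nonneg _)).mp h0 i (Finset.mem_univ i)
  have h2 := pow_eq_zero_iff (two_ne_zero) |>.mp h1
  exact sub_eq_zero.mp h2

theorem classical_unique {ν T : ℝ} (hν : 0 ≤ ν) (hT : 0 < T) {f u v : ℝ → Space → Space}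
    {p q : ℝ → Space → ℝ} (hu : IsClassical ν f T u p) (hv : IsClassical ν f T v q) :
    ∀ t ∈ Icc 0 T, ∀ x, v t x = u t x ∧ q t x = p t x := by
  have hvu := velocity_unique hν hT hu hv
  intro t ht x
  refine ⟨hvu t ht x, ?_⟩
  have hc : ∀ i, comp v i t = comp u i t := fun i => funext (fun y => congrFun (hvu t ht y) i)
  have hdx : ∀ i j, dx j (comp v i) t = dx j (comp u i) t := by
    intro i j; funext y; simp only [dx, hc]
  have hdxx : ∀ i j, dx j (dx j (comp v i)) t = dx j (dx j (comp u i)) t := by
    intro i j; funext y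
    change deriv (fun s => dx j (comp v i) t (Function.update y j s)) (y j)
      = deriv (fun s => dx j (comp u i) t (Function.update y j s)) (y j)
    rw [hdx]
  have hdt : ∀ i y, dtOn T (comp v i) t y = dtOn T (comp u i) t y := by
    intro i y
    unfold dtOn
    exact derivWithin_congr (fun s hs => congrFun (hvu s hs y) i) (congrFun (hvu t ht y) i)
  have hgrad : ∀ i y, dx i q t y = dx i p t y := by
    intro i y
    have a := hu.momentum t ht y i
    have b := hv.momentum t ht y i
    simp only [hc, hdx, hdxx, hdt] at b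
    linarith
  have hline : ∀ i (y : Space) (s : ℝ), q t (Function.update y i s) - p t (Function.update y i s)
      = q t y - p t y := by
    intro i y s
    have hd : ∀ r : ℝ, HasDerivAt
        (fun s => q t (Function.update y i s) - p t (Function.update y i s)) 0 r := by
      intro r
      have a := (hu.diff_p i).hasDerivAt ht (Function.update y i r)
      have b := (hv.diff_p i).hasDerivAt ht (Function.update y i r)
      simp only [Function.update_idem, Function.update_self] at a b
      have := b.fun_sub a
      rwa [hgrad, sub_self] at this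
    have := is_const_of_deriv_eq_zero (fun r => (hd r).differentiableAt)
      (fun r => (hd r).deriv) s (y i)
    simpa using this
  have hconst : ∀ y : Space, q t y - p t y = q t x - p t x := by
    intro y
    have e : y = Function.update (Function.update (Function.update x 0 (y 0)) 1 (y 1)) 2 (y 2) := by
      funext i; fin_cases i <;> simp
    rw [e, hline, hline, hline]
  have i1 : IntegrableOn (p t) (Icc (0 : Space) 1) :=
    (hu.cont_p.slice ht).continuousOn.integrableOn_compact isCompact_Icc
  have i2 : IntegrableOn (q t) (Icc (0 : Space) 1) :=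
    (hv.cont_p.slice ht).continuousOn.integrableOn_compact isCompact_Icc
  have h1 : ∫ y in Icc (0 : Space) 1, (q t y - p t y) = 0 := by
    rw [integral_sub i2 i1, hu.mean_zero t ht, hv.mean_zero t ht, sub_self]
  simp only [hconst, integral_const, MeasurableSet.univ, measureReal_restrict_apply,
    univ_inter, smul_eq_mul] at h1
  have h2 : volume.real (Icc (0 : Space) 1) = 1 := by
    rw [Measure.real, volume_cube]; simp
  rw [h2, one_mul] at h1
  linarith

end Vale.Agent.P113
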