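import Vale.Agent.P113.Geo
import Vale.Agent.P113.Unique

/-! Effectivity of the construction and the final assembly. -/

namespace Vale.Agent.P113

open Set Real

theorem c_nN : Computable nN :=
  cadd (cadd Computable.fst (Computable.const 1))
    (cmul (cmul (Computable.const 2) (Computable.list_length.comp Computable.snd)) Computable.fst)

theorem c_nJ : Computable nJ :=
  cmul (cmul (Computable.const 2) (Computable.list_length.comp Computable.snd)) c_nN

theorem c_bb : Computable bb := cmul (Computable.const 4) c_nN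

theorem c_sig : Computable (fun p : Machine × ℕ => p.2 / nN p.1) :=
  cdiv Computable.snd (c_nN.comp Computable.fst)

theorem c_sym : Computable (fun p : Machine × ℕ => p.2 % nN p.1) :=
  cmod Computable.snd (c_nN.comp Computable.fst)

theorem c_S : Computable (fun p : Machine × ℕ => p.1.1) := Computable.fst.comp Computable.fst

theorem c_even : ComputablePred (fun p : Machine × ℕ => (p.2 / nN p.1) % 2 = 0) :=
  ceq (cmod c_sig (Computable.const 2)) (Computable.const 0)

theorem c_l1 {α : Type} [Primcodable α] {a : α → ℕ} (ha : Computable a) :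
    Computable (fun p => [a p]) := Computable.list_cons.comp ha (Computable.const [])

theorem c_l2 {α : Type} [Primcodable α] {a b : α → ℕ} (ha : Computable a) (hb : Computable b) :
    Computable (fun p => [a p, b p]) := Computable.list_cons.comp ha (c_l1 hb)

theorem c_l3 {α : Type} [Primcodable α] {a b c : α → ℕ} (ha : Computable a) (hb : Computable b)
    (hc : Computable c) : Computable (fun p => [a p, b p, c p]) :=
  Computable.list_cons.comp ha (c_l2 hb hc)

theorem c_dU : Computable (fun p : Machine × ℕ => dU p.1 p.2) :=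
  cite c_even (c_l2 c_sig c_sym) (c_l1 c_sig)

theorem c_dV : Computable (fun p : Machine × ℕ => dV p.1 p.2) :=
  cite c_even (Computable.const []) (c_l1 c_sym)

theorem c_eta : Computable (fun p : Machine × ℕ => eta p.1 p.2) :=
  cadd (cadd (cadd c_S (Computable.const 1)) (cmul c_sig c_S)) c_sym

theorem c_ent : Computable (fun p : Machine × ℕ => ent p.1 p.2) :=
  (Primrec.list_getD _).to_comp.comp
    (Primrec.option_getD.to_comp.comp
      ((Primrec.list_getD _).to_comp.comp (Computable.snd.comp Computable.fst)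
        (cdiv c_sig (Computable.const 2))) (Computable.const [])) c_sym

theorem c_e1 : Computable (fun p : Machine × ℕ => (ent p.1 p.2).1) := Computable.fst.comp c_ent

theorem c_e2 : Computable (fun p : Machine × ℕ => (ent p.1 p.2).2.1) :=
  Computable.fst.comp (Computable.snd.comp c_ent)

theorem c_e3 : Computable (fun p : Machine × ℕ => (ent p.1 p.2).2.2.val) :=
  Primrec.fin_val.to_comp.comp (Computable.snd.comp (Computable.snd.comp c_ent))

theorem c_iU : Computable (fun p : Machine × ℕ => iU p.1 p.2) :=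
  have a := cmul (Computable.const 2) c_e1
  have b := cadd a (Computable.const 1)
  cite (cle c_S c_sym) (cite c_even (c_l1 c_sig) (c_l3 c_sig c_S c_sym))
    (cite (ceq c_e3 (Computable.const 0)) (c_l1 a)
      (cite (ceq c_e3 (Computable.const 1)) (c_l2 b c_eta) (c_l3 b c_eta c_e2)))

theorem c_iV : Computable (fun p : Machine × ℕ => iV p.1 p.2) :=
  cite (cle c_S c_sym) (cite c_even (c_l2 c_S c_sym) (Computable.const []))
    (cite (ceq c_e3 (Computable.const 0)) (c_l2 c_eta c_e2)
      (cite (ceq c_e3 (Computable.const 1)) (c_l1 c_e2) (Computable.const [])))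

section

variable {u v : Machine × ℕ → List ℕ}

theorem q_enc (hu : Computable u) : CQ (fun p : Machine × ℕ => encQ (bb p.1) (u p)) :=
  cq_encQ (c_bb.comp Computable.fst) (fun p => bb_pos p.1) hu

theorem q_selK (hu : Computable u) : CQ (fun p : Machine × ℕ => selK (bb p.1) (u p)) :=
  (CQ.nat (c_bb.comp Computable.fst)).pow (Computable.list_length.comp hu)

theorem q_selM (hu : Computable u) : CQ (fun p : Machine × ℕ => selM (bb p.1) (u p)) :=
  ((q_selK hu).mul (q_enc hu)).neg

theorem q_slope (hu : Computable u) (hv : Computable v) :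
    CQ (fun p : Machine × ℕ => slope p.1 (u p) (v p)) := (q_selK hu).div (q_selK hv)

theorem q_off (hu : Computable u) (hv : Computable v) :
    CQ (fun p : Machine × ℕ => off p.1 (u p) (v p)) :=
  (q_enc hv).sub ((q_slope hu hv).mul (q_enc hu))

end

theorem q_zz : CQ (fun p : Machine × ℕ => zz p.1) :=
  (CQ.const 8).mul ((CQ.nat (c_nJ.comp Computable.fst)).add (CQ.const 1))

theorem q_j : CQ (fun p : Machine × ℕ => (p.2 : ℚ)) := CQ.nat Computable.snd

theorem q_lift : CQ (fun p : Machine × ℕ => lift p.1 p.2) :=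
  CQ.ite (ceq (Computable.list_getElem?.comp (Computable.snd.comp Computable.fst)
    (cdiv c_sig (Computable.const 2))) (Computable.const (some none))) (CQ.const _) (CQ.const _)

theorem eff2_G1 : Eff2 G1 :=
  eff2_gsum c_nJ (q_selK c_dU) (q_selM c_dU) (q_selK c_dV) (q_selM c_dV)
    ((q_j.div q_zz).add q_lift) ((CQ.const 1).div ((CQ.const 2).mul q_zz))
    ((CQ.const 1).div ((CQ.const 2).mul q_zz))

theorem eff2_G2 : Eff2 G2 :=
  have a := (q_slope c_dU c_iU).sub (CQ.const 1)
  eff2_gsum c_nJ (CQ.const 0) (CQ.const 0) q_zz q_j.neg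
    ((q_off c_dU c_iU).sub (((CQ.const 2).mul q_j).mul a)) a.neg (((CQ.const 2).mul q_zz).mul a)

theorem eff2_G3 : Eff2 G3 :=
  have a := (q_slope c_dV c_iV).sub (CQ.const 1)
  eff2_gsum c_nJ (CQ.const 0) (CQ.const 0) q_zz q_j.neg
    ((q_off c_dV c_iV).add (a.mul
      (((q_off c_dU c_iU).div (q_slope c_dU c_iU)).sub ((CQ.const 2).mul q_j))))
    (a.neg.div (q_slope c_dU c_iU)) (((CQ.const 2).mul q_zz).mul a)

theorem eff2_G4 : Eff2 G4 :=
  have z := (CQ.const 2).mul q_zz
  eff2_gsum c_nJ (q_selK c_iU) (q_selM c_iU) (q_selK c_iV) (q_selM c_iV)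
    (((((q_off c_dU c_iU).div (q_slope c_dU c_iU)).add
      ((q_off c_dV c_iV).div (q_slope c_dV c_iV))).div z).sub (q_j.div q_zz))
    ((CQ.const (-1)).div (z.mul (q_slope c_dU c_iU)))
    ((CQ.const (-1)).div (z.mul (q_slope c_dV c_iV)))

theorem eff4_uu (i : Fin 3) : Eff4 (fun a : Machine × List ℕ => comp (uu a.1 a.2) i) :=
  eff4_vel
    (CR.ofCQ (cq_encQ (c_bb.comp Computable.fst) (fun p => bb_pos p.1) (Computable.const [1])))
    (CR.ofCQ (cq_encQ (c_bb.comp Computable.fst) (fun p => bb_pos p.1) Computable.snd))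
    (eff2_G1.comp Computable.fst) (eff2_G2.comp Computable.fst) (eff2_G3.comp Computable.fst)
    (eff2_G4.comp Computable.fst) i

theorem uu_periodic (M : Machine) (w : List ℕ) (t : ℝ) (i : Fin 3) :
    Periodic3 (comp (uu M w) i t) :=
  vel_periodic (gsum_per _ _ _ _ _ _ _ _) (gsum_per _ _ _ _ _ _ _ _) (gsum_per _ _ _ _ _ _ _ _)
    (gsum_per _ _ _ _ _ _ _ _) t i

theorem force_periodic (ν : ℝ) {u : ℝ → Space → Space} (h : ∀ t i, Periodic3 (comp u i t))
    (t : ℝ) (i : Fin 3) : Periodic3 (comp (force ν u) i t) := by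
  intro x j
  have h1 : dt (comp u i) t (Function.update x j (x j + 1)) = dt (comp u i) t x := by
    unfold dt
    congr 1
    funext s
    exact h s i x j
  have h2 := fun k => periodic_dx (periodic_dx (h t i) k) k x j
  simp only [comp, force, h1, h2]

theorem main_theorem (ν : ℝ) (hν : 0 < ν) (hc : ComputableReal ν) :
    ∃ (a : Space) (O : Set Torus) (compile : Machine × List ℕ → Nat.Partrec.Code)
      (f : Machine → List ℕ → ℝ → Space → Space) (T₀ P : ℝ),
      IsOpen O ∧ Computable compile ∧ 0 ≤ T₀ ∧ 0 < P ∧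
      ∀ (M : Machine) (w : List ℕ), WellFormed M → IsInput M w →
        (∀ i, Smooth (comp (f M w) i)) ∧
        (∀ t i, Periodic3 (comp (f M w) i t)) ∧
        Computes (compile (M, w)) (f M w) ∧
        (∀ t, T₀ ≤ t → ∀ x, f M w (t + P) x = f M w t x) ∧
        (∀ w', IsInput M w' → ∀ t, T₀ ≤ t → ∀ x, f M w t x = f M w' t x) ∧
        ∃ (u : ℝ → Space → Space) (p : ℝ → Space → ℝ),
          (∀ i, Smooth (comp u i)) ∧ Smooth p ∧
          (∀ T, 0 < T → IsClassical ν (f M w) T u p) ∧
          (∀ T, 0 < T → ∀ v q, IsClassical ν (f M w) T v q →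
            ∀ t ∈ Set.Icc 0 T, ∀ x, v t x = u t x ∧ q t x = p t x) ∧
          (∃ X, IsTrajectory u a X) ∧
          ∀ X, IsTrajectory u a X → ((∃ t, 0 ≤ t ∧ proj (X t) ∈ O) ↔ Halts M w) := by
  have hf := eff4_force hc eff4_uu
  obtain ⟨compile, hcomp, hC⟩ := exists_compiler hf
  refine ⟨0, region, compile, fun M w => force ν (uu M w), 2, 16, isOpen_region, hcomp,
    by norm_num, by norm_num, fun M w hM hw => ?_⟩
  have hcl : ∀ T, 0 < T → IsClassical ν (force ν (uu M w)) T (uu M w) (fun _ _ => 0) :=
    fun T hT => isClassical_force ν hT (fun i => (eff4_uu i).1 (M, w)) (uu_periodic M w)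
      vel_zero vel_div vel_adv
  refine ⟨fun i => (hf i).1 (M, w), force_periodic ν (uu_periodic M w), hC (M, w),
    fun t ht x => force_add ν ht x, fun w' _ t ht x => ?_, uu M w, fun _ _ => 0,
    fun i => (eff4_uu i).1 (M, w), contDiff_const, hcl,
    fun T hT v q hv => classical_unique hν.le hT (hcl T hT) hv,
    traj_exists (W := WW M w) slotW_shear vel_slot 0, fun X hX => detect hM hw hX⟩
  exact (force_late ν ht x).trans (force_late ν ht x).symm

end Vale.Agent.P113
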