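import Vale.Agent.P113.Blocks

/-! A reversible two-stack rewriting system that simulates a Turing machine. -/

namespace Vale.Agent.P113

/-- Number of stack symbols. -/
def nN (M : Machine) : ℕ := M.1 + 1 + 2 * M.2.length * M.1

/-- Number of rewriting rules. -/
def nJ (M : Machine) : ℕ := 2 * M.2.length * nN M

/-- The table entry, with a default. -/
def act (M : Machine) (q s : ℕ) : ℕ × ℕ × Fin 3 := ((M.2.getD q none).getD []).getD s (0, 0, 0)

/-- The history symbol of a rule. -/
def eta (M : Machine) (j : ℕ) : ℕ := M.1 + 1 + (j / nN M) * M.1 + j % nN M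

/-- Word removed from the first stack by rule `j`. -/
def dU (M : Machine) (j : ℕ) : List ℕ :=
  if (j / nN M) % 2 = 0 then [j / nN M, j % nN M] else [j / nN M]

/-- Word removed from the second stack by rule `j`. -/
def dV (M : Machine) (j : ℕ) : List ℕ := if (j / nN M) % 2 = 0 then [] else [j % nN M]

/-- The table entry used by rule `j`. -/
def ent (M : Machine) (j : ℕ) : ℕ × ℕ × Fin 3 := act M (j / nN M / 2) (j % nN M)

/-- Word put on the first stack by rule `j`. -/
def iU (M : Machine) (j : ℕ) : List ℕ :=
  if M.1 ≤ j % nN M then (if (j / nN M) % 2 = 0 then [j / nN M] else [j / nN M, M.1, j % nN M])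
  else if (ent M j).2.2.val = 0 then [2 * (ent M j).1]
  else if (ent M j).2.2.val = 1 then [2 * (ent M j).1 + 1, eta M j]
  else [2 * (ent M j).1 + 1, eta M j, (ent M j).2.1]

/-- Word put on the second stack by rule `j`. -/
def iV (M : Machine) (j : ℕ) : List ℕ :=
  if M.1 ≤ j % nN M then (if (j / nN M) % 2 = 0 then [M.1, j % nN M] else [])
  else if (ent M j).2.2.val = 0 then [eta M j, (ent M j).2.1]
  else if (ent M j).2.2.val = 1 then [(ent M j).2.1]
  else []

/-- The symbol scanned in a two-stack configuration. -/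
def top (C : List ℕ × List ℕ) : ℕ :=
  if C.1.headD 0 % 2 = 0 then C.1.tail.headD 0 else C.2.headD 0

/-- The rule that applies. -/
def idx (M : Machine) (C : List ℕ × List ℕ) : ℕ := C.1.headD 0 * nN M + top C

/-- One rewriting step. -/
def next (M : Machine) (C : List ℕ × List ℕ) : List ℕ × List ℕ :=
  (iU M (idx M C) ++ C.1.drop (dU M (idx M C)).length,
    iV M (idx M C) ++ C.2.drop (dV M (idx M C)).length)

/-- Valid two-stack configurations. -/
def Valid (M : Machine) (C : List ℕ × List ℕ) : Prop :=
  (∀ s ∈ C.1, s < nN M) ∧ (∀ s ∈ C.2, s < nN M) ∧ C.1.headD 0 < 2 * M.2.length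

variable {M : Machine}

theorem nN_pos (M : Machine) : 0 < nN M := by unfold nN; omega

theorem headD_lt {N : ℕ} (hN : 0 < N) {l : List ℕ} (h : ∀ s ∈ l, s < N) : l.headD 0 < N := by
  cases l with
  | nil => exact hN
  | cons a l => exact h a List.mem_cons_self

theorem Valid.top_lt {C : List ℕ × List ℕ} (h : Valid M C) : top C < nN M := by
  unfold top
  split_ifs
  · exact headD_lt (nN_pos M) (fun s hs => h.1 s (List.mem_of_mem_tail hs))
  · exact headD_lt (nN_pos M) h.2.1

theorem Valid.idx_div {C : List ℕ × List ℕ} (h : Valid M C) : idx M C / nN M = C.1.headD 0 := by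
  unfold idx
  rw [add_comm, Nat.add_mul_div_right _ _ (nN_pos M), Nat.div_eq_of_lt h.top_lt, zero_add]

theorem Valid.idx_mod {C : List ℕ × List ℕ} (h : Valid M C) : idx M C % nN M = top C := by
  unfold idx
  rw [add_comm, Nat.add_mul_mod_self_right, Nat.mod_eq_of_lt h.top_lt]

theorem Valid.idx_lt {C : List ℕ × List ℕ} (h : Valid M C) : idx M C < nJ M := by
  have h1 := h.top_lt
  have h2 := h.2.2
  unfold idx nJ
  nlinarith

theorem Valid.pre_dom {C : List ℕ × List ℕ} (h : Valid M C) :
    Pre (dU M (idx M C)) C.1 ∧ Pre (dV M (idx M C)) C.2 := by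
  unfold dU dV
  rw [h.idx_div, h.idx_mod]
  unfold top
  split_ifs <;> simp [Pre]

theorem eq_idx_of_pre {C : List ℕ × List ℕ} {j : ℕ} (h1 : Pre (dU M j) C.1)
    (h2 : Pre (dV M j) C.2) : j = idx M C := by
  unfold dU at h1
  unfold dV at h2
  unfold idx top
  have e := Nat.div_add_mod' j (nN M)
  split_ifs at h1 h2 with h
  · simp only [Pre] at h1
    rw [h1.1, if_pos h, h1.2.1, e]
  · simp only [Pre] at h1 h2
    rw [h1.1, if_neg h, h2.1, e]

theorem div_lt_of_lt {j : ℕ} (hj : j < nJ M) : j / nN M < 2 * M.2.length :=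
  Nat.div_lt_of_lt_mul (by unfold nJ at hj; rwa [mul_comm])

theorem act_lt (hM : WellFormed M) (q s : ℕ) :
    (act M q s).1 < M.2.length ∧ (act M q s).2.1 < M.1 := by
  unfold act
  rcases hq : M.2.getD q none with _ | row
  · exact ⟨hM.2.1, hM.1⟩
  · have hmem : some row ∈ M.2 := by
      rw [List.getD_eq_getElem?_getD] at hq
      rcases h : M.2[q]? with _ | o
      · simp [h] at hq
      · simp only [h, Option.getD_some] at hq
        subst hq
        exact List.mem_of_getElem? h
    simp only [Option.getD_some]
    rw [List.getD_eq_getElem?_getD]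
    rcases h : row[s]? with _ | e
    · exact ⟨hM.2.1, hM.1⟩
    · exact (hM.2.2 row hmem).2 e (List.mem_of_getElem? h)

theorem state_lt_nN (hM : WellFormed M) {σ : ℕ} (h : σ < 2 * M.2.length) : σ < nN M := by
  have := hM.1
  unfold nN
  nlinarith

theorem eta_lt {j : ℕ} (hj : j < nJ M) (hs : j % nN M < M.1) : eta M j < nN M := by
  have h1 := div_lt_of_lt hj
  unfold eta
  have : (j / nN M + 1) * M.1 ≤ 2 * M.2.length * M.1 := Nat.mul_le_mul_right _ h1
  conv_rhs => unfold nN
  nlinarith

theorem dU_lt (hM : WellFormed M) {j : ℕ} (hj : j < nJ M) : ∀ s ∈ dU M j, s < nN M := by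
  have h1 := state_lt_nN hM (div_lt_of_lt hj)
  have h2 := Nat.mod_lt j (nN_pos M)
  unfold dU
  split_ifs <;> simp [h1, h2]

theorem dV_lt (j : ℕ) : ∀ s ∈ dV M j, s < nN M := by
  have h2 := Nat.mod_lt j (nN_pos M)
  unfold dV
  split_ifs <;> simp [h2]

theorem iU_lt (hM : WellFormed M) {j : ℕ} (hj : j < nJ M) :
    (∀ s ∈ iU M j, s < nN M) ∧ ∀ l, (iU M j ++ l).headD 0 < 2 * M.2.length := by
  have h0 := div_lt_of_lt hj
  have h1 := state_lt_nN hM h0
  have h2 := Nat.mod_lt j (nN_pos M)
  have h3 : (ent M j).1 < M.2.length ∧ (ent M j).2.1 < M.1 := act_lt hM _ _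
  have h4 : M.1 < nN M := by unfold nN; omega
  have h5 := state_lt_nN hM (σ := 2 * (ent M j).1) (by omega)
  have h6 := state_lt_nN hM (σ := 2 * (ent M j).1 + 1) (by omega)
  unfold iU
  split_ifs with a b c d
  · simp [h0, h1]
  · simp [h0, h1, h2, h4]
  · simp only [List.mem_singleton, forall_eq, List.cons_append, List.headD_cons]
    exact ⟨h5, fun _ => by omega⟩
  · simp only [List.mem_cons, List.not_mem_nil, or_false, forall_eq_or_imp, forall_eq,
      List.cons_append, List.headD_cons]
    exact ⟨⟨h6, eta_lt hj (not_le.mp a)⟩, fun _ => by omega⟩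
  · simp only [List.mem_cons, List.not_mem_nil, or_false, forall_eq_or_imp, forall_eq,
      List.cons_append, List.headD_cons]
    exact ⟨⟨h6, eta_lt hj (not_le.mp a), by omega⟩, fun _ => by omega⟩

theorem iV_lt (hM : WellFormed M) {j : ℕ} (hj : j < nJ M) : ∀ s ∈ iV M j, s < nN M := by
  have h2 := Nat.mod_lt j (nN_pos M)
  have h3 : (ent M j).1 < M.2.length ∧ (ent M j).2.1 < M.1 := act_lt hM _ _
  have h4 : M.1 < nN M := by unfold nN; omega
  unfold iV
  split_ifs with a b c d
  · simp [h2, h4]
  · simp
  · simp only [List.mem_cons, List.not_mem_nil, or_false, forall_eq_or_imp, forall_eq]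
    exact ⟨eta_lt hj (not_le.mp a), by omega⟩
  · simp only [List.mem_singleton, forall_eq]
    omega
  · simp

theorem Valid.next (hM : WellFormed M) {C : List ℕ × List ℕ} (h : Valid M C) :
    Valid M (next M C) := by
  refine ⟨fun s hs => ?_, fun s hs => ?_, (iU_lt hM h.idx_lt).2 _⟩
  · rcases List.mem_append.mp hs with hs | hs
    · exact (iU_lt hM h.idx_lt).1 s hs
    · exact h.1 s (List.mem_of_mem_drop hs)
  · rcases List.mem_append.mp hs with hs | hs
    · exact iV_lt hM h.idx_lt s hs
    · exact h.2.1 s (List.mem_of_mem_drop hs)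

/-- Recover the last rule from the configuration. -/
def back (M : Machine) (C : List ℕ × List ℕ) : ℕ :=
  if (if C.1.headD 0 % 2 = 0 then C.2 else C.1.tail).headD 0 = M.1 then
    C.1.headD 0 * nN M + (if C.1.headD 0 % 2 = 0 then C.2 else C.1.tail).tail.headD 0
  else (((if C.1.headD 0 % 2 = 0 then C.2 else C.1.tail).headD 0 - (M.1 + 1)) / M.1) * nN M
    + ((if C.1.headD 0 % 2 = 0 then C.2 else C.1.tail).headD 0 - (M.1 + 1)) % M.1

theorem back_eta {j : ℕ} (hs : j % nN M < M.1) :
    eta M j ≠ M.1 ∧ ((eta M j - (M.1 + 1)) / M.1) * nN M + (eta M j - (M.1 + 1)) % M.1 = j := by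
  have e : eta M j - (M.1 + 1) = j % nN M + (j / nN M) * M.1 := by unfold eta; omega
  refine ⟨by unfold eta; omega, ?_⟩
  rw [e, Nat.add_mul_div_right _ _ (by omega), Nat.add_mul_mod_self_right, Nat.div_eq_of_lt hs,
    Nat.mod_eq_of_lt hs, zero_add, Nat.div_add_mod']

theorem back_of_pre {C : List ℕ × List ℕ} {j : ℕ} (h1 : Pre (iU M j) C.1)
    (h2 : Pre (iV M j) C.2) : back M C = j := by
  have e := Nat.div_add_mod' j (nN M)
  unfold iU at h1
  unfold iV at h2
  unfold back
  split_ifs at h1 h2 with a b c d
  · simp only [Pre] at h1 h2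
    rw [h1.1, if_pos b, if_pos h2.1, h2.2.1, e]
  · simp only [Pre] at h1 h2
    rw [h1.1, if_neg b, if_pos h1.2.1, h1.2.2.1, e]
  · simp only [Pre] at h1 h2
    have := back_eta (not_le.mp a)
    rw [h1.1, if_pos (by omega : 2 * (ent M j).1 % 2 = 0), h2.1, if_neg this.1, this.2]
  · simp only [Pre] at h1 h2
    have := back_eta (not_le.mp a)
    rw [h1.1, if_neg (by omega : ¬ (2 * (ent M j).1 + 1) % 2 = 0), h1.2.1, if_neg this.1, this.2]
  · simp only [Pre] at h1 h2
    have := back_eta (not_le.mp a)
    rw [h1.1, if_neg (by omega : ¬ (2 * (ent M j).1 + 1) % 2 = 0), h1.2.1, if_neg this.1, this.2]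

theorem eq_idx_of_pre_next {C : List ℕ × List ℕ} {j : ℕ} (h1 : Pre (iU M j) (next M C).1)
    (h2 : Pre (iV M j) (next M C).2) : j = idx M C := by
  rw [← back_of_pre h1 h2]
  exact back_of_pre (pre_append _ _) (pre_append _ _)

/-! ### Simulation -/

/-- The genuine tape symbols of a stack. -/
def real (M : Machine) (l : List ℕ) : List ℕ := l.filter (fun s => decide (s < M.1))

/-- The two-stack configuration represents the machine configuration. -/
def Rel (M : Machine) (c : Cfg) (C : List ℕ × List ℕ) : Prop :=
  c.state = C.1.headD 0 / 2 ∧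
    (∀ i : ℕ, (real M C.1.tail).getD i 0 = c.tape (c.head - ((C.1.headD 0 % 2 : ℕ) : ℤ) - i)) ∧
    (∀ i : ℕ, (real M C.2).getD i 0 = c.tape (c.head + 1 - ((C.1.headD 0 % 2 : ℕ) : ℤ) + i))

theorem drop_two (l : List ℕ) : l.drop 2 = l.tail.tail := by
  rcases l with _ | ⟨a, _ | ⟨b, l⟩⟩ <;> rfl

theorem step_halt {c : Cfg} (h : M.2[c.state]? = some none) : step M c = c := by
  unfold step; rw [h]

theorem real_cons_lt {s : ℕ} (h : s < M.1) (l : List ℕ) : real M (s :: l) = s :: real M l := by
  simp [real, h]

theorem real_cons_ge {s : ℕ} (h : M.1 ≤ s) (l : List ℕ) : real M (s :: l) = real M l := by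
  simp [real, h]

theorem real_tail_ge {l : List ℕ} (hS : 0 < M.1) (h : M.1 ≤ l.headD 0) :
    real M l.tail = real M l ∧ l.tail.length < l.length := by
  cases l with
  | nil => simp at h; omega
  | cons a l => exact ⟨(real_cons_ge h l).symm, by simp⟩

theorem real_tail_lt {l : List ℕ} (h : l.headD 0 < M.1) :
    (real M l).getD 0 0 = l.headD 0 ∧ ∀ i, (real M l.tail).getD i 0 = (real M l).getD (i + 1) 0 := by
  cases l with
  | nil => simp [real]
  | cons a l =>
    rw [real_cons_lt (show a < M.1 from h)]
    simp

/-- Length of the stack that is being scanned. -/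
def len (C : List ℕ × List ℕ) : ℕ :=
  if C.1.headD 0 % 2 = 0 then C.1.tail.length else C.2.length

theorem rel_seek (hM : WellFormed M) {c : Cfg} {C : List ℕ × List ℕ} (hv : Valid M C)
    (hr : Rel M c C) (h : M.1 ≤ top C) : Rel M c (next M C) ∧ len (next M C) < len C := by
  unfold next iU iV dU dV
  rw [hv.idx_div, hv.idx_mod, if_pos h, if_pos h]
  obtain ⟨r1, r2, r3⟩ := hr
  unfold top at h ⊢
  unfold Rel len
  by_cases hd : C.1.headD 0 % 2 = 0
  · simp only [hd, if_true] at h r2 r3 ⊢
    have := real_tail_ge hM.1 h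
    simp only [List.cons_append, List.nil_append, List.headD_cons, List.tail_cons, hd, if_true,
      List.length_cons, List.length_nil, List.drop_zero]
    rw [real_cons_ge le_rfl, real_cons_ge h]
    have e : List.drop (0 + 1 + 1) C.1 = C.1.tail.tail := drop_two _
    rw [e, this.1]
    exact ⟨⟨r1, r2, r3⟩, this.2⟩
  · simp only [hd, if_false] at h r2 r3 ⊢
    have := real_tail_ge hM.1 h
    simp only [List.cons_append, List.nil_append, List.headD_cons, List.tail_cons, hd, if_false,
      List.length_cons, List.length_nil]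
    rw [real_cons_ge le_rfl, real_cons_ge h]
    have e : List.drop (0 + 1) C.1 = C.1.tail := by simp
    have e' : List.drop (0 + 1) C.2 = C.2.tail := by simp
    rw [e, e', this.1]
    exact ⟨⟨r1, r2, r3⟩, this.2⟩

theorem step_eq (hM : WellFormed M) {c : Cfg} (hq : c.state < M.2.length)
    (hn : M.2[c.state]? ≠ some none) (hs : c.tape c.head < M.1) :
    step M c = ⟨(act M c.state (c.tape c.head)).1,
      Function.update c.tape c.head (act M c.state (c.tape c.head)).2.1,
      c.head + ((act M c.state (c.tape c.head)).2.2.val : ℤ) - 1⟩ := by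
  have h1 : M.2[c.state]? = some M.2[c.state] := List.getElem?_eq_getElem hq
  rcases h2 : M.2[c.state] with _ | row
  · rw [h2] at h1; exact absurd h1 hn
  · rw [h2] at h1
    have hmem : some row ∈ M.2 := List.mem_of_getElem? h1
    have h3 : c.tape c.head < row.length := by rw [(hM.2.2 row hmem).1]; exact hs
    have h4 : row[c.tape c.head]? = some row[c.tape c.head] := List.getElem?_eq_getElem h3
    have h5 : act M c.state (c.tape c.head) = row[c.tape c.head] := by
      simp [act, List.getD_eq_getElem?_getD, h1, h4]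
    unfold step
    rw [h1]
    simp only [h4, h5]

theorem rel_step (hM : WellFormed M) {c : Cfg} {C : List ℕ × List ℕ} (hv : Valid M C)
    (hr : Rel M c C) (h : top C < M.1) (hn : M.2[c.state]? ≠ some none) :
    Rel M (step M c) (next M C) := by
  obtain ⟨r1, r2, r3⟩ := hr
  have hq : c.state < M.2.length := by have := hv.2.2; omega
  have key : c.tape c.head = top C ∧
      (∀ i : ℕ, (real M (C.1.drop (dU M (idx M C)).length)).getD i 0 = c.tape (c.head - 1 - i)) ∧
      (∀ i : ℕ, (real M (C.2.drop (dV M (idx M C)).length)).getD i 0 = c.tape (c.head + 1 + i)) := by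
    unfold dU dV
    rw [hv.idx_div, hv.idx_mod]
    unfold top at h ⊢
    by_cases hd : C.1.headD 0 % 2 = 0
    · simp only [hd, if_true] at h r2 r3 ⊢
      have := real_tail_lt h
      refine ⟨?_, fun i => ?_, fun i => ?_⟩
      · rw [← this.1, r2]; simp
      · have e : List.drop [C.1.headD 0, C.1.tail.headD 0].length C.1 = C.1.tail.tail :=
          drop_two _
        rw [e, this.2, r2]
        congr 1; push_cast; ring
      · rw [List.length_nil, List.drop_zero, r3]
        congr 1; push_cast; ring
    · have hd' : C.1.headD 0 % 2 = 1 := by omega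
      simp only [hd', one_ne_zero, if_false] at h r2 r3 ⊢
      have := real_tail_lt h
      refine ⟨?_, fun i => ?_, fun i => ?_⟩
      · rw [← this.1, r3]; simp
      · have e : List.drop [C.1.headD 0].length C.1 = C.1.tail := by simp
        rw [e, r2]
        congr 1
      · have e : List.drop [C.2.headD 0].length C.2 = C.2.tail := by simp
        rw [e, this.2, r3]
        congr 1; push_cast; ring
  obtain ⟨k1, k2, k3⟩ := key
  rw [step_eq hM hq hn (k1 ▸ h)]
  have hent : ent M (idx M C) = act M c.state (c.tape c.head) := by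
    unfold ent
    rw [hv.idx_div, hv.idx_mod, r1, k1]
  have hlt := act_lt hM c.state (c.tape c.head)
  have heta : M.1 ≤ eta M (idx M C) := by unfold eta; omega
  unfold next iU iV
  rw [hv.idx_mod, if_neg (not_le.mpr h), if_neg (not_le.mpr h), hent]
  generalize act M c.state (c.tape c.head) = e at hlt ⊢
  generalize C.1.drop (dU M (idx M C)).length = L at k2 ⊢
  generalize C.2.drop (dV M (idx M C)).length = R at k3 ⊢
  obtain ⟨q', a', m⟩ := e
  simp only at hlt ⊢
  unfold Rel
  by_cases m0 : m.val = 0
  · simp only [m0, if_true, List.cons_append, List.nil_append, List.headD_cons, List.tail_cons]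
    rw [real_cons_ge heta, real_cons_lt hlt.2]
    have e2 : 2 * q' % 2 = 0 := by omega
    refine ⟨by omega, fun i => ?_, fun i => ?_⟩
    · rw [k2, Function.update_of_ne (by omega)]
      congr 1; omega
    · cases i with
      | zero =>
        rw [List.getD_cons_zero]
        have : c.head + ((0 : ℕ) : ℤ) - 1 + 1 - ((2 * q' % 2 : ℕ) : ℤ) + ((0 : ℕ) : ℤ) = c.head := by
          omega
        rw [this, Function.update_self]
      | succ i =>
        rw [List.getD_cons_succ, k3, Function.update_of_ne (by omega)]
        congr 1; omega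
  · by_cases m1 : m.val = 1
    · simp only [m1, one_ne_zero, if_true, if_false, List.cons_append, List.nil_append,
        List.headD_cons, List.tail_cons]
      rw [real_cons_ge heta, real_cons_lt hlt.2]
      refine ⟨by omega, fun i => ?_, fun i => ?_⟩
      · rw [k2, Function.update_of_ne (by omega)]
        congr 1; omega
      · cases i with
        | zero =>
          rw [List.getD_cons_zero]
          have : c.head + ((1 : ℕ) : ℤ) - 1 + 1 - (((2 * q' + 1) % 2 : ℕ) : ℤ) + ((0 : ℕ) : ℤ)
              = c.head := by omega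
          rw [this, Function.update_self]
        | succ i =>
          rw [List.getD_cons_succ, k3, Function.update_of_ne (by omega)]
          congr 1; omega
    · have m2 : m.val = 2 := by have := m.isLt; omega
      simp only [m0, m1, if_false, List.cons_append, List.nil_append,
        List.headD_cons, List.tail_cons]
      rw [real_cons_ge heta, real_cons_lt hlt.2]
      refine ⟨by omega, fun i => ?_, fun i => ?_⟩
      · cases i with
        | zero =>
          rw [List.getD_cons_zero]
          have : c.head + (m.val : ℤ) - 1 - (((2 * q' + 1) % 2 : ℕ) : ℤ) - ((0 : ℕ) : ℤ)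
              = c.head := by omega
          rw [this, Function.update_self]
        | succ i =>
          rw [List.getD_cons_succ, k2, Function.update_of_ne (by omega)]
          congr 1; omega
      · rw [k3, Function.update_of_ne (by omega)]
        congr 1; omega

/-- The two-stack configuration is in a halting state. -/
def HaltC (M : Machine) (C : List ℕ × List ℕ) : Prop := M.2[C.1.headD 0 / 2]? = some none

/-- The run of the two-stack system on input `w`. -/
def run (M : Machine) (w : List ℕ) (n : ℕ) : List ℕ × List ℕ := (next M)^[n] ([1], w)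

theorem run_succ (w : List ℕ) (n : ℕ) : run M w (n + 1) = next M (run M w n) :=
  Function.iterate_succ_apply' _ _ _

theorem valid_run (hM : WellFormed M) {w : List ℕ} (hw : IsInput M w) (n : ℕ) :
    Valid M (run M w n) := by
  induction n with
  | zero =>
    have := hM.2.1
    refine ⟨fun s hs => ?_, fun s hs => ?_, ?_⟩
    · have : s = 1 := by simpa [run] using hs
      exact state_lt_nN hM (by omega)
    · have := hw s hs
      unfold nN; omega
    · simp only [run, Function.iterate_zero, id, List.headD_cons]; omega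
  | succ n ih => rw [run_succ]; exact ih.next hM

theorem rel_start {w : List ℕ} (hw : IsInput M w) : Rel M (startCfg w) ([1], w) := by
  refine ⟨by simp [startCfg], fun i => ?_, fun i => ?_⟩
  · have : ¬ (0 : ℤ) ≤ 0 - ((1 % 2 : ℕ) : ℤ) - i := by omega
    simp only [startCfg, List.headD_cons, this, if_false]
    simp [real]
  · have e : real M w = w := List.filter_eq_self.mpr (fun a ha => by simpa using hw a ha)
    simp [startCfg, e]

theorem progress (hM : WellFormed M) {c : Cfg} (hn : M.2[c.state]? ≠ some none) (k : ℕ) :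
    ∀ C : List ℕ × List ℕ, len C < k → Valid M C → Rel M c C →
      ∃ n, Rel M (step M c) ((next M)^[n] C) := by
  induction k with
  | zero => intro C h; omega
  | succ k ih =>
    intro C hk hv hr
    rcases lt_or_ge (top C) M.1 with h | h
    · exact ⟨1, rel_step hM hv hr h hn⟩
    · obtain ⟨a, b⟩ := rel_seek hM hv hr h
      obtain ⟨n, hn'⟩ := ih (next M C) (by omega) (hv.next hM) a
      exact ⟨n + 1, hn'⟩

theorem halts_iff (hM : WellFormed M) {w : List ℕ} (hw : IsInput M w) :
    Halts M w ↔ ∃ n, HaltC M (run M w n) := by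
  constructor
  · rintro ⟨m, hm⟩
    have key : ∀ m : ℕ, ∃ n, Rel M ((step M)^[m] (startCfg w)) (run M w n) := by
      intro m
      induction m with
      | zero => exact ⟨0, rel_start hw⟩
      | succ m ih =>
        obtain ⟨n, hn⟩ := ih
        rw [Function.iterate_succ_apply']
        by_cases hh : M.2[((step M)^[m] (startCfg w)).state]? = some none
        · refine ⟨n, ?_⟩
          rwa [step_halt hh]
        · obtain ⟨k, hk⟩ := progress hM hh _ _ (Nat.lt_succ_self _) (valid_run hM hw n) hn
          refine ⟨k + n, ?_⟩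
          rwa [run, Function.iterate_add_apply]
    obtain ⟨n, hn⟩ := key m
    refine ⟨n, ?_⟩
    unfold HaltC
    rw [← hn.1]
    exact hm
  · rintro ⟨n, hn⟩
    by_contra hcon
    have hnot : ∀ m : ℕ, M.2[((step M)^[m] (startCfg w)).state]? ≠ some none :=
      fun m h => hcon ⟨m, h⟩
    have key : ∀ n : ℕ, ∃ m, Rel M ((step M)^[m] (startCfg w)) (run M w n) := by
      intro n
      induction n with
      | zero => exact ⟨0, rel_start hw⟩
      | succ n ih =>
        obtain ⟨m, hm⟩ := ih
        rw [run_succ]
        rcases lt_or_ge (top (run M w n)) M.1 with h | h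
        · refine ⟨m + 1, ?_⟩
          rw [Function.iterate_succ_apply']
          exact rel_step hM (valid_run hM hw n) hm h (hnot m)
        · exact ⟨m, (rel_seek hM (valid_run hM hw n) hm h).1⟩
    obtain ⟨m, hm⟩ := key n
    unfold HaltC at hn
    rw [← hm.1] at hn
    exact hnot m hn

end Vale.Agent.P113
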