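import Vale.Agent.P113.Eff4

/-! Trajectories of a sequence of shear fields. -/

namespace Vale.Agent.P113

open Set Real

theorem dphi_left {t : ℝ} (h : t ≤ 0) : deriv smoothTransition t = 0 := by
  have := iteratedDeriv_phi_left 1 h
  rwa [iteratedDeriv_one] at this

theorem dphi_right {t : ℝ} (h : 1 ≤ t) : deriv smoothTransition t = 0 := by
  have := iteratedDeriv_phi_right 1 h
  rwa [iteratedDeriv_one, if_neg one_ne_zero] at this

theorem hasDerivAt_phi_sub (c t : ℝ) :
    HasDerivAt (fun s => smoothTransition (s - c)) (deriv smoothTransition (t - c)) t :=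
  ((phi_contDiff.differentiable (by simp) (t - c)).hasDerivAt).comp_sub_const t c

/-- A field whose value depends only on coordinates along which it has no component. -/
def Shear (V : Space → Space) : Prop :=
  ∀ x y, (∀ i, (∀ z, V z i = 0) → x i = y i) → V x = V y

/-- The points visited at integer times. -/
noncomputable def pts (W : ℕ → Space → Space) (a : Space) : ℕ → Space
  | 0 => a
  | n + 1 => pts W a n + W n (pts W a n)

theorem traj_eq {u : ℝ → Space → Space} {W : ℕ → Space → Space} (hW : ∀ n, Shear (W n))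
    (hu : ∀ (n : ℕ) (t : ℝ), t ∈ Icc (n : ℝ) (n + 1) → ∀ x,
      u t x = deriv smoothTransition (t - n) • W n x)
    {a : Space} {X : ℝ → Space} (hX : IsTrajectory u a X) (n : ℕ) :
    ∀ t ∈ Icc (n : ℝ) (n + 1),
      X t = pts W a n + smoothTransition (t - n) • W n (pts W a n) := by
  have step : ∀ n : ℕ, X n = pts W a n → ∀ t ∈ Icc (n : ℝ) (n + 1),
      X t = pts W a n + smoothTransition (t - n) • W n (pts W a n) := by
    intro n hn
    have hn0 : (0 : ℝ) ≤ n := Nat.cast_nonneg n
    have hd : ∀ t ∈ Icc (n : ℝ) (n + 1),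
        HasDerivWithinAt X (deriv smoothTransition (t - n) • W n (X t)) (Ici 0) t := by
      intro t ht
      rw [← hu n t ht]
      exact hX.2 t (le_trans hn0 ht.1)
    have hc : ContinuousOn X (Icc (n : ℝ) (n + 1)) := fun t ht =>
      (hd t ht).continuousWithinAt.mono (fun s hs => le_trans hn0 hs.1)
    have h1 : ∀ t ∈ Icc (n : ℝ) (n + 1), W n (X t) = W n (pts W a n) := by
      intro t ht
      refine hW n _ _ (fun i hi => ?_)
      rw [← hn]
      refine constant_of_has_deriv_right_zero (f := fun s => X s i)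
        ((continuous_apply i).comp_continuousOn hc) (fun s hs => ?_) t ht
      have := (hasDerivWithinAt_pi.mp (hd s (Ico_subset_Icc_self hs)) i).mono
        (Ici_subset_Ici.mpr (le_trans hn0 hs.1))
      simpa [hi] using this
    intro t ht
    have h2 := constant_of_has_deriv_right_zero
      (f := fun s => X s - smoothTransition (s - n) • W n (pts W a n)) (a := n) (b := n + 1)
      (hc.sub (Continuous.continuousOn (by fun_prop))) (fun s hs => by
        have a1 := (hd s (Ico_subset_Icc_self hs)).mono (Ici_subset_Ici.mpr (le_trans hn0 hs.1))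
        rw [h1 s (Ico_subset_Icc_self hs)] at a1
        have a2 := ((hasDerivAt_phi_sub n s).smul_const (W n (pts W a n))).hasDerivWithinAt
          (s := Ici s)
        have := a1.fun_sub a2
        rwa [sub_self] at this) t ht
    simp only [sub_self, smoothTransition.zero, zero_smul, sub_zero] at h2
    rw [hn] at h2
    exact sub_eq_iff_eq_add.mp h2
  refine step n ?_
  induction n with
  | zero => simpa [pts] using hX.1
  | succ m ih =>
    have := step m ih (m + 1) ⟨by linarith, le_rfl⟩
    push_cast
    rw [this]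
    simp [pts]

theorem pts_eq_sum (W : ℕ → Space → Space) (a : Space) (n : ℕ) :
    pts W a n = a + ∑ k ∈ Finset.range n, W k (pts W a k) := by
  induction n with
  | zero => simp [pts]
  | succ n ih => rw [Finset.sum_range_succ, ← add_assoc, ← ih, pts]

theorem traj_exists {u : ℝ → Space → Space} {W : ℕ → Space → Space} (hW : ∀ n, Shear (W n))
    (hu : ∀ (n : ℕ) (t : ℝ), t ∈ Icc (n : ℝ) (n + 1) → ∀ x,
      u t x = deriv smoothTransition (t - n) • W n x) (a : Space) :
    ∃ X, IsTrajectory u a X := by
  let Y : ℕ → ℝ → Space := fun N t =>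
    a + ∑ k ∈ Finset.range N, smoothTransition (t - k) • W k (pts W a k)
  have hY : ∀ (t : ℝ) (N N' : ℕ), t ≤ N → N ≤ N' → Y N' t = Y N t := by
    intro t N N' h1 h2
    simp only [Y]
    congr 1
    symm
    refine Finset.sum_subset (Finset.range_subset_range.mpr h2) (fun k _ hk => ?_)
    have : (N : ℝ) ≤ k := by exact_mod_cast not_lt.mp (fun h => hk (Finset.mem_range.mpr h))
    rw [smoothTransition.zero_of_nonpos (by linarith), zero_smul]
  refine ⟨fun t => Y ⌈t⌉₊ t, by simp [Y], fun t ht => ?_⟩
  set n := ⌊t⌋₊ with hn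
  have h1 : (n : ℝ) ≤ t := Nat.floor_le ht
  have h2 : t < n + 1 := Nat.lt_floor_add_one t
  have hev : (fun s => Y ⌈s⌉₊ s) =ᶠ[nhds t] Y (n + 1) := by
    filter_upwards [Iio_mem_nhds h2] with s hs
    refine (hY s _ _ (Nat.le_ceil s) ?_).symm
    exact Nat.ceil_le.mpr (by push_cast; exact le_of_lt hs)
  have hval : Y ⌈t⌉₊ t = pts W a n + smoothTransition (t - n) • W n (pts W a n) := by
    rw [show Y ⌈t⌉₊ t = Y (n + 1) t from hev.self_of_nhds]
    simp only [Y]
    rw [Finset.sum_range_succ, ← add_assoc, pts_eq_sum W a n]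
    congr 2
    refine Finset.sum_congr rfl (fun k hk => ?_)
    have : (k : ℝ) + 1 ≤ n := by exact_mod_cast Finset.mem_range.mp hk
    rw [smoothTransition.one_of_one_le (by linarith), one_smul]
  have hWv : W n (Y ⌈t⌉₊ t) = W n (pts W a n) := by
    refine hW n _ _ (fun i hi => ?_)
    rw [hval]
    simp [hi]
  have hder : HasDerivAt (Y (n + 1))
      (∑ k ∈ Finset.range (n + 1), deriv smoothTransition (t - k) • W k (pts W a k)) t :=
    (HasDerivAt.fun_sum (fun (k : ℕ) _ =>
      (hasDerivAt_phi_sub (k : ℝ) t).smul_const (W k (pts W a k)))).const_add a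
  have hsum : ∑ k ∈ Finset.range (n + 1), deriv smoothTransition (t - k) • W k (pts W a k)
      = u t (Y ⌈t⌉₊ t) := by
    rw [hu n t ⟨h1, h2.le⟩, hWv, Finset.sum_range_succ, Finset.sum_eq_zero, zero_add]
    intro k hk
    have : (k : ℝ) + 1 ≤ n := by exact_mod_cast Finset.mem_range.mp hk
    rw [dphi_right (by linarith), zero_smul]
  rw [hsum] at hder
  exact (hder.congr_of_eventuallyEq hev).hasDerivWithinAt

end Vale.Agent.P113
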